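import Mathlib

/-!
Finite product measures and biased Fourier coefficients.
-/

namespace Vale.Agent.P063

open Finset

variable {E : Type*} [Fintype E] [DecidableEq E] {α β : Type*} [Fintype α] [Fintype β]

/-- the weight of a point -/
def prw (ν : α → ℝ) (x : E → α) : ℝ := ∏ i, ν (x i)

/-- the mean under the product law -/
def ev (ν : α → ℝ) (f : (E → α) → ℝ) : ℝ := ∑ x, prw ν x * f x

/-- the law of one biased bit -/
def nu (p : ℝ) : Bool → ℝ := fun b => if b then p else 1 - p

/-- the centred normalised bit -/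
noncomputable def chi1 (p : ℝ) (b : Bool) : ℝ :=
  ((if b then 1 else 0) - p) / √(p * (1 - p))

/-- the biased characters -/
noncomputable def chi (p : ℝ) (S : Finset E) (x : E → Bool) : ℝ := ∏ i ∈ S, chi1 p (x i)

/-- the biased Fourier coefficient -/
noncomputable def fhat (p : ℝ) (f : (E → Bool) → ℝ) (S : Finset E) : ℝ :=
  ev (nu p) fun x => f x * chi p S x

/-- the total influence, in spectral form -/
noncomputable def tinf (p : ℝ) (f : (E → Bool) → ℝ) : ℝ :=
  ∑ S : Finset E, (S.card : ℝ) * fhat p f S ^ 2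

/-- a function with values zero and one -/
def IsBool (f : (E → Bool) → ℝ) : Prop := ∀ x, f x = 0 ∨ f x = 1

/-- `y` on `J` and `x` elsewhere -/
def mer (J : Finset E) (y x : E → α) : E → α := fun i => if i ∈ J then y i else x i

/-- the coefficient at `T` of the restriction of `f` to `J` by `x` -/
noncomputable def res (p : ℝ) (f : (E → Bool) → ℝ) (J T : Finset E) (x : E → Bool) : ℝ :=
  ev (nu p) fun y => f (mer J y x) * chi p T y

/-- the random set of a bit vector -/
def setOfBits (b : E → Bool) : Finset E := univ.filter fun i => b i = true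

theorem mem_setOfBits {b : E → Bool} {i : E} : i ∈ setOfBits b ↔ b i = true := by
  simp [setOfBits]

variable {ν : α → ℝ}

theorem ev_const (hν : ∑ a, ν a = 1) (c : ℝ) : ev (E := E) ν (fun _ => c) = c := by
  rw [ev, ← sum_mul]
  have : ∑ x : E → α, prw ν x = 1 := by
    simp only [prw]
    rw [← Fintype.prod_sum (fun (_ : E) a => ν a)]
    simp [hν]
  rw [this, one_mul]

theorem ev_add (f g : (E → α) → ℝ) : ev ν (fun x => f x + g x) = ev ν f + ev ν g := by
  simp only [ev, mul_add, sum_add_distrib]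

theorem ev_mul (c : ℝ) (f : (E → α) → ℝ) : ev ν (fun x => c * f x) = c * ev ν f := by
  simp only [ev, mul_sum]
  exact sum_congr rfl fun x _ => by ring

theorem ev_sum {κ : Type*} (s : Finset κ) (f : κ → (E → α) → ℝ) :
    ev ν (fun x => ∑ k ∈ s, f k x) = ∑ k ∈ s, ev ν (f k) := by
  simp only [ev, mul_sum]
  exact sum_comm

theorem prw_nonneg (hν : ∀ a, 0 ≤ ν a) (x : E → α) : 0 ≤ prw ν x := prod_nonneg fun i _ => hν _

theorem ev_mono (hν : ∀ a, 0 ≤ ν a) {f g : (E → α) → ℝ} (h : ∀ x, f x ≤ g x) :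
    ev ν f ≤ ev ν g :=
  sum_le_sum fun x _ => mul_le_mul_of_nonneg_left (h x) (prw_nonneg hν x)

theorem ev_nonneg (hν : ∀ a, 0 ≤ ν a) {f : (E → α) → ℝ} (h : ∀ x, 0 ≤ f x) : 0 ≤ ev ν f :=
  sum_nonneg fun x _ => mul_nonneg (prw_nonneg hν x) (h x)

/-- Cauchy-Schwarz -/
theorem ev_sq_le (hν : ∀ a, 0 ≤ ν a) (f g : (E → α) → ℝ) :
    ev ν (fun x => f x * g x) ^ 2 ≤ ev ν (fun x => f x ^ 2) * ev ν (fun x => g x ^ 2) := by
  refine sum_sq_le_sum_mul_sum_of_sq_le_mul _ (fun x _ => ?_) (fun x _ => ?_) fun x _ => ?_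
  · exact mul_nonneg (prw_nonneg hν x) (sq_nonneg _)
  · exact mul_nonneg (prw_nonneg hν x) (sq_nonneg _)
  · exact le_of_eq (by ring)

/-- the mean of a product over coordinates -/
theorem ev_prod_fn (g : E → α → ℝ) :
    ev ν (fun x => ∏ i, g i (x i)) = ∏ i, ∑ a, ν a * g i a := by
  simp only [ev, prw, ← prod_mul_distrib]
  rw [Fintype.prod_sum]

/-- the mean over pairs is the iterated mean -/
theorem ev_pair (μ : β → ℝ) (F : (E → α × β) → ℝ) :
    ev (fun c : α × β => ν c.1 * μ c.2) F
      = ev ν fun a => ev μ fun b => F fun i => (a i, b i) := by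
  simp only [ev, prw, mul_sum]
  rw [← (Equiv.arrowProdEquivProdArrow E (fun _ => α) (fun _ => β)).symm.sum_comp, Fintype.sum_prod_type]
  refine sum_congr rfl fun a _ => sum_congr rfl fun b _ => ?_
  simp [Equiv.arrowProdEquivProdArrow, prod_mul_distrib, mul_assoc]

/-- resampling the coordinates in `J` -/
theorem ev_mer (hν : ∑ a, ν a = 1) (J : Finset E) (G : (E → α) → ℝ) :
    (ev ν fun x => ev ν fun y => G (mer J y x)) = ev ν G := by
  have hw : ∀ x y : E → α,
      prw ν (mer J y x) * prw ν (mer J x y) = prw ν x * prw ν y := by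
    intro x y
    simp only [prw, ← prod_mul_distrib]
    refine prod_congr rfl fun i _ => ?_
    by_cases h : i ∈ J <;> simp [mer, h, mul_comm]
  have hinv : ∀ x y : E → α, mer J (mer J x y) (mer J y x) = x := fun x y => by
    funext i; by_cases h : i ∈ J <;> simp [mer, h]
  let e : (E → α) × (E → α) ≃ (E → α) × (E → α) :=
    { toFun := fun z => (mer J z.2 z.1, mer J z.1 z.2)
      invFun := fun z => (mer J z.2 z.1, mer J z.1 z.2)
      left_inv := fun z => Prod.ext (hinv z.1 z.2) (hinv z.2 z.1)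
      right_inv := fun z => Prod.ext (hinv z.1 z.2) (hinv z.2 z.1) }
  calc (ev ν fun x => ev ν fun y => G (mer J y x))
      = ∑ z : (E → α) × (E → α), prw ν z.1 * prw ν z.2 * G (mer J z.2 z.1) := by
        rw [Fintype.sum_prod_type]
        exact sum_congr rfl fun x _ => by simp [ev, mul_sum, mul_assoc]
    _ = ∑ z : (E → α) × (E → α), prw ν z.1 * prw ν z.2 * G z.1 := by
        rw [← e.sum_comp (fun z => prw ν z.1 * prw ν z.2 * G z.1)]
        exact sum_congr rfl fun z _ => by simp [e, hw]
    _ = ev ν G := by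
        rw [Fintype.sum_prod_type]
        refine sum_congr rfl fun x _ => ?_
        have := ev_const (E := E) hν (1 : ℝ)
        simp only [ev, mul_one] at this
        simp only []
        rw [← sum_mul, ← mul_sum, this, mul_one]

variable {p : ℝ}

theorem sum_nu (p : ℝ) : ∑ b, nu p b = 1 := by simp [nu]

theorem nu_nonneg (h0 : 0 ≤ p) (h1 : p ≤ 1) (b : Bool) : 0 ≤ nu p b := by
  cases b <;> simp [nu] <;> linarith

/-- the bias is strictly inside the unit interval -/
def Inner (p : ℝ) : Prop := 0 < p ∧ p < 1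

theorem Inner.var_pos (hp : Inner p) : 0 < p * (1 - p) := mul_pos hp.1 (by linarith [hp.2])

theorem Inner.nonneg (hp : Inner p) : ∀ b, 0 ≤ nu p b := nu_nonneg hp.1.le hp.2.le

theorem mean_chi1 (p : ℝ) : ∑ b, nu p b * chi1 p b = 0 := by
  simp [nu, chi1]; ring

theorem sq_chi1 (hp : Inner p) : ∑ b, nu p b * chi1 p b ^ 2 = 1 := by
  have h := hp.var_pos
  simp [nu, chi1, div_pow, Real.sq_sqrt h.le]
  have h0 := hp.1
  have h1 : (0 : ℝ) < 1 - p := by linarith [hp.2]
  field_simp
  ring

theorem four_chi1 (hp : Inner p) : ∑ b, nu p b * chi1 p b ^ 4 ≤ 1 / (p * (1 - p)) := by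
  have h := hp.var_pos
  have h4 : (√(p * (1 - p))) ^ 4 = (p * (1 - p)) ^ 2 := by
    rw [show 4 = 2 * 2 by norm_num, pow_mul, Real.sq_sqrt h.le]
  simp only [Fintype.sum_bool, nu, chi1, div_pow, h4, if_true]
  have h0 := hp.1
  have h1 : (0 : ℝ) < 1 - p := by linarith [hp.2]
  rw [← mul_div_assoc, ← mul_div_assoc, ← add_div, div_le_div_iff₀ (by positivity) h]
  simp
  nlinarith [pow_pos h 3, mul_pos h (mul_pos h h)]

theorem sum_chi_mul (hp : Inner p) (x y : E → Bool) :
    prw (nu p) x * ∑ S : Finset E, chi p S x * chi p S y = if x = y then 1 else 0 := by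
  have h0 := hp.1
  have h1 : (0 : ℝ) < 1 - p := by linarith [hp.2]
  have hs := hp.var_pos
  have e : ∑ S : Finset E, chi p S x * chi p S y = ∏ i, (1 + chi1 p (x i) * chi1 p (y i)) := by
    rw [prod_one_add, powerset_univ]
    exact sum_congr rfl fun S _ => by simp [chi, prod_mul_distrib]
  have hf : ∀ a b : Bool, nu p a * (1 + chi1 p a * chi1 p b) = if a = b then 1 else 0 := by
    intro a b
    cases a <;> cases b <;>
      simp [nu, chi1, div_mul_div_comm, Real.mul_self_sqrt hs.le] <;> field_simp <;>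
      (try simp)
  rw [e, prw, ← prod_mul_distrib, prod_congr rfl fun i _ => hf (x i) (y i)]
  by_cases hxy : x = y
  · simp [hxy]
  · obtain ⟨i, hi⟩ := Function.ne_iff.1 hxy
    rw [if_neg hxy]
    exact prod_eq_zero (mem_univ i) (if_neg hi)

/-- the Parseval identity -/
theorem parseval (hp : Inner p) (f : (E → Bool) → ℝ) :
    ∑ S : Finset E, fhat p f S ^ 2 = ev (nu p) fun x => f x ^ 2 := by
  calc ∑ S : Finset E, fhat p f S ^ 2
      = ∑ S : Finset E, ∑ x, ∑ y, prw (nu p) y * f y * f x *
          (prw (nu p) x * (chi p S x * chi p S y)) := by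
        refine sum_congr rfl fun S _ => ?_
        rw [sq, fhat, ev, sum_mul_sum]
        exact sum_congr rfl fun x _ => sum_congr rfl fun y _ => by ring
    _ = ∑ x, ∑ y, prw (nu p) y * f y * f x *
          (prw (nu p) x * ∑ S : Finset E, chi p S x * chi p S y) := by
        rw [sum_comm]
        refine sum_congr rfl fun x _ => ?_
        rw [sum_comm]
        exact sum_congr rfl fun y _ => by simp [mul_sum]
    _ = ev (nu p) fun x => f x ^ 2 := by
        simp only [sum_chi_mul hp, mul_ite, mul_one, mul_zero, sum_ite_eq, mem_univ, if_true, ev]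
        exact sum_congr rfl fun x _ => by ring

/-- a function blind to a coordinate has no coefficient there -/
theorem fhat_eq_zero (p : ℝ) {f : (E → Bool) → ℝ} {i : E}
    (hf : ∀ x y, (∀ j, j ≠ i → x j = y j) → f x = f y) {S : Finset E} (hi : i ∈ S) :
    fhat p f S = 0 := by
  rw [fhat, ← ev_mer (sum_nu p) {i}]
  refine sum_eq_zero fun x _ => mul_eq_zero_of_right _ ?_
  have hc : ∀ y, f (mer {i} y x) * chi p S (mer {i} y x)
      = f x * chi p (S.erase i) x * ∏ j, (if j = i then chi1 p (y j) else 1) := by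
    intro y
    have e1 : f (mer {i} y x) = f x := hf _ _ fun j hj => by simp [mer, hj]
    have e2 : chi p S (mer {i} y x) = chi p (S.erase i) x * chi1 p (y i) := by
      rw [chi, chi, ← mul_prod_erase S _ hi, mul_comm]
      congr 1
      · exact prod_congr rfl fun j hj => by simp [mer, (mem_erase.1 hj).1]
      · simp [mer]
    rw [e1, e2, prod_ite_eq' univ i fun j => chi1 p (y j), if_pos (mem_univ i), mul_assoc]
  simp only [hc, ev_mul]
  rw [ev_prod_fn (fun j b => if j = i then chi1 p b else 1)]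
  exact mul_eq_zero_of_right _ (prod_eq_zero (mem_univ i) (by simp only [if_true]; exact mean_chi1 p))

theorem res_zero (p : ℝ) (f : (E → Bool) → ℝ) {J T : Finset E} (hT : ¬ T ⊆ J)
    (x : E → Bool) : res p f J T x = 0 := by
  obtain ⟨i, hiT, hiJ⟩ := not_subset.1 hT
  refine fhat_eq_zero p (f := fun y => f (mer J y x)) (fun a b h => ?_) hiT
  congr 1
  funext j
  by_cases hj : j ∈ J
  · simp [mer, hj, h j fun e => hiJ (e ▸ hj)]
  · simp [mer, hj]

theorem chi_congr (p : ℝ) {S : Finset E} {x y : E → Bool} (h : ∀ i ∈ S, x i = y i) :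
    chi p S x = chi p S y := prod_congr rfl fun i hi => by rw [h i hi]

/-- the coefficient of a coefficient of a restriction -/
theorem fhat_res (p : ℝ) (f : (E → Bool) → ℝ) {J T U : Finset E} (hT : T ⊆ J)
    (hU : Disjoint U J) : fhat p (res p f J T) U = fhat p f (T ∪ U) := by
  have hTU : Disjoint T U := disjoint_left.2 fun i h1 h2 => disjoint_left.1 hU h2 (hT h1)
  rw [fhat, fhat, ← ev_mer (sum_nu p) J (fun x => f x * chi p (T ∪ U) x)]
  refine congrArg (ev (nu p)) (funext fun x => ?_)
  rw [res, mul_comm, ← ev_mul]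
  refine congrArg (ev (nu p)) (funext fun y => ?_)
  have e1 : chi p T (mer J y x) = chi p T y := chi_congr p fun i hi => by simp [mer, hT hi]
  have e2 : chi p U (mer J y x) = chi p U x :=
    chi_congr p fun i hi => by simp [mer, disjoint_left.1 hU hi]
  have e3 : chi p (T ∪ U) (mer J y x) = chi p T (mer J y x) * chi p U (mer J y x) :=
    prod_union hTU
  rw [e3, e1, e2]
  ring

theorem fhat_res_zero (p : ℝ) (f : (E → Bool) → ℝ) {J : Finset E} (T : Finset E) {U : Finset E}
    (hU : ¬ Disjoint U J) : fhat p (res p f J T) U = 0 := by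
  obtain ⟨i, hiU, hiJ⟩ := not_disjoint_iff.1 hU
  refine fhat_eq_zero p (fun a b h => ?_) hiU
  refine congrArg (ev (nu p)) (funext fun y => ?_)
  congr 2
  funext j
  by_cases hj : j ∈ J
  · simp [mer, hj]
  · simp [mer, hj, h j fun e => hj (e ▸ hiJ)]

/-- the mass of the coefficients meeting `J` in `T` -/
theorem ev_res_sq (hp : Inner p) (f : (E → Bool) → ℝ) {J T : Finset E} (hT : T ⊆ J) :
    ev (nu p) (fun x => res p f J T x ^ 2)
      = ∑ S ∈ univ.filter (fun S : Finset E => S ∩ J = T), fhat p f S ^ 2 := by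
  rw [← parseval hp,
    ← sum_subset (subset_univ (univ.filter fun U : Finset E => Disjoint U J)) fun U _ hU => by
      rw [fhat_res_zero p f T (by simpa using hU)]; ring]
  refine sum_bij' (fun U _ => T ∪ U) (fun S _ => S \ J) ?_ ?_ ?_ ?_ ?_
  · intro U hU
    simp only [mem_filter, mem_univ, true_and] at hU ⊢
    rw [union_inter_distrib_right, inter_eq_left.2 hT, disjoint_iff_inter_eq_empty.1 hU,
      union_empty]
  · intro S _
    simp [sdiff_disjoint]
  · intro U hU
    simp only [mem_filter, mem_univ, true_and] at hU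
    rw [union_sdiff_distrib, sdiff_eq_empty_iff_subset.2 hT, empty_union,
      sdiff_eq_self_of_disjoint hU]
  · intro S hS
    simp only [mem_filter, mem_univ, true_and] at hS
    rw [← hS, union_comm, sdiff_union_inter]
  · intro U hU
    simp only [mem_filter, mem_univ, true_and] at hU
    rw [fhat_res p f hT hU]

theorem ev_sq_le_one (hp : Inner p) {f : (E → Bool) → ℝ} (hf : IsBool f) :
    (ev (nu p) fun x => f x ^ 2) ≤ 1 := by
  refine (ev_mono hp.nonneg fun x => ?_).trans (le_of_eq (ev_const (sum_nu p) 1))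
  rcases hf x with h | h <;> simp [h]

theorem sum_fhat_sq_le (hp : Inner p) {f : (E → Bool) → ℝ} (hf : IsBool f) :
    ∑ S : Finset E, fhat p f S ^ 2 ≤ 1 := (parseval hp f).trans_le (ev_sq_le_one hp hf)

theorem isBool_mer {f : (E → Bool) → ℝ} (hf : IsBool f) (J : Finset E) (x : E → Bool) :
    IsBool fun y => f (mer J y x) := fun _ => hf _

theorem sum_res_sq_le (hp : Inner p) {f : (E → Bool) → ℝ} (hf : IsBool f) (J : Finset E)
    (x : E → Bool) (s : Finset (Finset E)) : ∑ T ∈ s, res p f J T x ^ 2 ≤ 1 :=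
  (sum_le_sum_of_subset_of_nonneg (subset_univ s) fun _ _ _ => sq_nonneg _).trans
    (sum_fhat_sq_le hp (isBool_mer hf J x))

theorem tinf_nonneg (p : ℝ) (f : (E → Bool) → ℝ) : 0 ≤ tinf p f :=
  sum_nonneg fun S _ => mul_nonneg (Nat.cast_nonneg _) (sq_nonneg _)

/-- restrictions have no more influence on average -/
theorem ev_tinf_le (hp : Inner p) (f : (E → Bool) → ℝ) (J : Finset E) :
    (ev (nu p) fun x => tinf p fun y => f (mer J y x)) ≤ tinf p f := by
  change (ev (nu p) fun x => ∑ T : Finset E, (T.card : ℝ) * res p f J T x ^ 2) ≤ _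
  rw [ev_sum]
  have h : ∀ T : Finset E, ev (nu p) (fun x => (T.card : ℝ) * res p f J T x ^ 2)
      ≤ ∑ S : Finset E, if S ∩ J = T then (S.card : ℝ) * fhat p f S ^ 2 else 0 := by
    intro T
    rw [ev_mul]
    by_cases hT : T ⊆ J
    · rw [ev_res_sq hp f hT, mul_sum, sum_filter]
      refine sum_le_sum fun S _ => ?_
      split_ifs with hS
      · subst hS
        exact mul_le_mul_of_nonneg_right (by exact_mod_cast card_le_card inter_subset_left)
          (sq_nonneg _)
      · rfl
    · have : ev (nu p) (fun x => res p f J T x ^ 2) = 0 := by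
        simp [res_zero p f hT, ev_const (sum_nu p)]
      rw [this, mul_zero]
      exact sum_nonneg fun S _ => by split_ifs <;> positivity
  refine (sum_le_sum fun T _ => h T).trans (le_of_eq ?_)
  rw [sum_comm]
  simp [tinf]

end Vale.Agent.P063
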