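import Mathlib

/-!
Threshold widths of increasing hypergraph properties.
-/

namespace Vale.Agent.P063

/-- the possible edges: the `r`-element subsets of the `n` vertices -/
abbrev Edge (n r : ℕ) := {e : Finset (Fin n) // e.card = r}

variable {n r : ℕ}

/-- the image of an edge under a permutation of the vertices -/
def edgePerm (π : Equiv.Perm (Fin n)) (e : Edge n r) : Edge n r :=
  ⟨e.1.map π.toEmbedding, by simp [e.2]⟩

/-- a property: a family of hypergraphs invariant under the permutations of the vertices -/
def IsSymm (P : Set (Finset (Edge n r))) : Prop :=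
  ∀ π : Equiv.Perm (Fin n), ∀ H ∈ P, H.image (edgePerm π) ∈ P

/-- adding edges preserves membership -/
def IsIncreasing (P : Set (Finset (Edge n r))) : Prop :=
  ∀ H ∈ P, ∀ K, H ⊆ K → K ∈ P

open Classical in
/-- the probability that the random hypergraph with edge probability `p` lies in the property -/
noncomputable def mu (p : ℝ) (P : Set (Finset (Edge n r))) : ℝ :=
  ∑ H : Finset (Edge n r),
    if H ∈ P then p ^ H.card * (1 - p) ^ (Fintype.card (Edge n r) - H.card) else 0

/-- the least edge probability at which the property has probability at least `a` -/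
noncomputable def pLevel (a : ℝ) (P : Set (Finset (Edge n r))) : ℝ :=
  sInf {p : ℝ | 0 ≤ p ∧ p ≤ 1 ∧ a ≤ mu p P}

/-- the threshold width -/
noncomputable def width (ε : ℝ) (P : Set (Finset (Edge n r))) : ℝ :=
  pLevel (1 - ε) P - pLevel ε P

end Vale.Agent.P063
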