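import Vale.Agent.P063.Basic

/-!
Fourth moments of low-degree polynomials and the correlation of a function of small support.
-/

namespace Vale.Agent.P063

open Finset

variable {E : Type*} [Fintype E] [DecidableEq E] {α : Type*} [Fintype α]

/-- the product of one function over the coordinates in `U` -/
def mono (φ : α → ℝ) (U : Finset E) (x : E → α) : ℝ := ∏ i ∈ U, φ (x i)

/-- the index sets of a polynomial -/
def lows (s : Finset E) (m : ℕ) : Finset (Finset E) := s.powerset.filter fun U => U.card ≤ m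

/-- a polynomial -/
def poly (φ : α → ℝ) (s : Finset E) (m : ℕ) (c : Finset E → ℝ) (x : E → α) : ℝ :=
  ∑ U ∈ lows s m, c U * mono φ U x

omit [Fintype E] in
theorem sum_lows_insert {i : E} {s : Finset E} (hi : i ∉ s) (m : ℕ) (F : Finset E → ℝ) :
    ∑ U ∈ lows (insert i s) (m + 1), F U
      = ∑ U ∈ lows s (m + 1), F U + ∑ U ∈ lows s m, F (insert i U) := by
  simp only [lows, sum_filter]
  rw [sum_powerset_insert hi]
  congr 1
  refine sum_congr rfl fun U hU => ?_
  have hiU : i ∉ U := fun h => hi (mem_powerset.1 hU h)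
  simp [card_insert_of_notMem hiU]

omit [Fintype E] in
theorem poly_insert (φ : α → ℝ) {i : E} {s : Finset E} (hi : i ∉ s) (m : ℕ) (c : Finset E → ℝ)
    (x : E → α) :
    poly φ (insert i s) (m + 1) c x
      = poly φ s (m + 1) c x + φ (x i) * poly φ s m (fun U => c (insert i U)) x := by
  rw [poly, sum_lows_insert hi m, poly, poly, mul_sum]
  congr 1
  refine sum_congr rfl fun U hU => ?_
  have hiU : i ∉ U := fun h => hi (mem_powerset.1 (mem_filter.1 hU).1 h)
  rw [mono, prod_insert hiU, ← mono]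
  ring

omit [Fintype E] [DecidableEq E] in
theorem poly_congr (φ : α → ℝ) {s : Finset E} (m : ℕ) (c : Finset E → ℝ) {x y : E → α}
    (h : ∀ j ∈ s, x j = y j) : poly φ s m c x = poly φ s m c y := by
  refine sum_congr rfl fun U hU => ?_
  congr 1
  exact prod_congr rfl fun j hj => by rw [h j (mem_powerset.1 (mem_filter.1 hU).1 hj)]

/-- a coordinate is independent of a function blind to it -/
theorem ev_indep {ν : α → ℝ} (hν : ∑ a, ν a = 1) {i : E} {F : (E → α) → ℝ}
    (hF : ∀ x y, (∀ j, j ≠ i → x j = y j) → F x = F y) (ψ : α → ℝ) :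
    ev ν (fun x => F x * ψ (x i)) = ev ν F * ∑ a, ν a * ψ a := by
  rw [← ev_mer hν {i}]
  have hψ : ev ν (fun y : E → α => ψ (y i)) = ∑ a, ν a * ψ a := by
    have : ∀ y : E → α, ψ (y i) = ∏ j, (if j = i then ψ (y j) else 1) := fun y => by
      rw [prod_ite_eq' univ i fun j => ψ (y j), if_pos (mem_univ i)]
    simp only [this]
    rw [ev_prod_fn (fun j a => if j = i then ψ a else 1), prod_eq_single i]
    · simp
    · intro j _ hj; simp [hj, hν]
    · simp
  have : ∀ x y : E → α, F (mer {i} y x) * ψ (mer {i} y x i) = F x * ψ (y i) := fun x y => by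
    rw [hF (mer {i} y x) x fun j hj => by simp [mer, hj]]
    simp [mer]
  simp only [this, ev_mul, hψ]
  simp only [ev, sum_mul]
  exact sum_congr rfl fun x _ => by ring

/-- the fourth moment of a polynomial of degree `m` -/
theorem moment_four {ν : α → ℝ} (hν0 : ∀ a, 0 ≤ ν a) (hν : ∑ a, ν a = 1) {φ : α → ℝ} {κ K : ℝ}
    (h1 : ∑ a, ν a * φ a = 0) (h2 : ∑ a, ν a * φ a ^ 2 ≤ 1) (h4 : ∑ a, ν a * φ a ^ 4 ≤ κ)
    (hK : 4 ≤ K) (hKκ : 3 * κ ≤ K ^ 2) (s : Finset E) :
    ∀ (m : ℕ) (c : Finset E → ℝ),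
      ev ν (fun x => poly φ s m c x ^ 4) ≤ K ^ (2 * m) * (∑ U ∈ lows s m, c U ^ 2) ^ 2 := by
  have hK1 : 1 ≤ K := by linarith
  induction s using Finset.induction with
  | empty =>
    intro m c
    have : lows (∅ : Finset E) m = {∅} := by
      simp [lows, filter_singleton]
    simp only [poly, this, sum_singleton, mono, prod_empty, mul_one]
    rw [ev_const hν, ← pow_mul]
    exact le_mul_of_one_le_left (by positivity) (one_le_pow₀ hK1)
  | insert i s hi ih =>
    intro m c
    cases m with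
    | zero =>
      have : lows (insert i s) 0 = {∅} := by
        ext U; simp +contextual [lows]
      simp only [poly, this, sum_singleton, mono, prod_empty, mul_one, Nat.mul_zero, pow_zero,
        one_mul]
      rw [ev_const hν, ← pow_mul]
    | succ m =>
      set A := fun x : E → α => poly φ s (m + 1) c x with hA
      set B := fun x : E → α => poly φ s m (fun U => c (insert i U)) x with hB
      set a := ∑ U ∈ lows s (m + 1), c U ^ 2 with ha
      set b := ∑ U ∈ lows s m, c (insert i U) ^ 2 with hb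
      have ha0 : 0 ≤ a := sum_nonneg fun U _ => sq_nonneg _
      have hb0 : 0 ≤ b := sum_nonneg fun U _ => sq_nonneg _
      have hAi : ∀ x y : E → α, (∀ j, j ≠ i → x j = y j) → A x = A y := fun x y h =>
        poly_congr φ _ _ fun j hj => h j fun e => hi (e ▸ hj)
      have hBi : ∀ x y : E → α, (∀ j, j ≠ i → x j = y j) → B x = B y := fun x y h =>
        poly_congr φ _ _ fun j hj => h j fun e => hi (e ▸ hj)
      have e2 := ev_indep hν (i := i) (F := fun x => A x ^ 3 * B x)
        (fun x y h => by simp only [hAi x y h, hBi x y h]) φ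
      have e3 := ev_indep hν (i := i) (F := fun x => A x ^ 2 * B x ^ 2)
        (fun x y h => by simp only [hAi x y h, hBi x y h]) fun t => φ t ^ 2
      have e4 := ev_indep hν (i := i) (F := fun x => A x * B x ^ 3)
        (fun x y h => by simp only [hAi x y h, hBi x y h]) fun t => φ t ^ 3
      have e5 := ev_indep hν (i := i) (F := fun x => B x ^ 4) (fun x y h => by simp only [hBi x y h])
        fun t => φ t ^ 4
      have hexp : ev ν (fun x => poly φ (insert i s) (m + 1) c x ^ 4)
          = ev ν (fun x => A x ^ 4)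
            + 6 * (ev ν (fun x => A x ^ 2 * B x ^ 2) * ∑ t, ν t * φ t ^ 2)
            + 4 * (ev ν (fun x => A x * B x ^ 3) * ∑ t, ν t * φ t ^ 3)
            + ev ν (fun x => B x ^ 4) * ∑ t, ν t * φ t ^ 4 := by
        rw [← e3, ← e4, ← e5, ← ev_mul, ← ev_mul, ← ev_add, ← ev_add, ← ev_add]
        have e2' : ev ν (fun x => 4 * (A x ^ 3 * B x * φ (x i))) = 0 := by
          rw [ev_mul, e2, h1, mul_zero, mul_zero]
        rw [← add_zero (ev ν (fun x => A x ^ 4 + 6 * (A x ^ 2 * B x ^ 2 * φ (x i) ^ 2)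
          + 4 * (A x * B x ^ 3 * φ (x i) ^ 3) + B x ^ 4 * φ (x i) ^ 4)), ← e2', ← ev_add]
        refine congrArg (ev ν) (funext fun x => ?_)
        rw [poly_insert φ hi, hA, hB]
        ring
      set k2 := ∑ t, ν t * φ t ^ 2
      set k3 := ∑ t, ν t * φ t ^ 3
      set k4 := ∑ t, ν t * φ t ^ 4
      have hk20 : 0 ≤ k2 := sum_nonneg fun t _ => mul_nonneg (hν0 t) (sq_nonneg _)
      have hk40 : 0 ≤ k4 := sum_nonneg fun t _ => mul_nonneg (hν0 t) (by positivity)
      have hk3 : k3 ^ 2 ≤ k2 * k4 := by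
        refine sum_sq_le_sum_mul_sum_of_sq_le_mul _ (fun t _ => ?_) (fun t _ => ?_) fun t _ => ?_
        · exact mul_nonneg (hν0 t) (sq_nonneg _)
        · exact mul_nonneg (hν0 t) (by positivity)
        · exact le_of_eq (by ring)
      set EA := ev ν fun x => A x ^ 4
      set EAB := ev ν fun x => A x ^ 2 * B x ^ 2
      set EB := ev ν fun x => B x ^ 4
      have hEA0 : 0 ≤ EA := ev_nonneg hν0 fun x => by positivity
      have hEB0 : 0 ≤ EB := ev_nonneg hν0 fun x => by positivity
      have hEAB0 : 0 ≤ EAB := ev_nonneg hν0 fun x => by positivity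
      have hmid : 4 * (ev ν (fun x => A x * B x ^ 3) * k3) ≤ 2 * EAB + 2 * (κ * EB) := by
        have h := ev_mono (f := fun x => 4 * k3 * (A x * B x ^ 3))
          (g := fun x => 2 * (A x ^ 2 * B x ^ 2) + 2 * k3 ^ 2 * (B x ^ 4)) hν0 fun x => by
            nlinarith [sq_nonneg (A x * B x - k3 * B x ^ 2)]
        rw [ev_add, ev_mul, ev_mul, ev_mul] at h
        have hk : k3 ^ 2 ≤ κ := hk3.trans ((mul_le_of_le_one_left hk40 h2).trans h4)
        have := mul_le_mul_of_nonneg_right hk hEB0
        nlinarith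
      have hA4 : EA ≤ K ^ (2 * (m + 1)) * a ^ 2 := ih (m + 1) c
      have hB4 : EB ≤ K ^ (2 * m) * b ^ 2 := ih m _
      have hAB : EAB ≤ K ^ (2 * m + 1) * (a * b) := by
        have hcs := ev_sq_le hν0 (fun x => A x ^ 2) (fun x => B x ^ 2)
        simp only [← pow_mul] at hcs
        refine le_of_pow_le_pow_left₀ two_ne_zero (by positivity) (hcs.trans ?_)
        calc _ ≤ K ^ (2 * (m + 1)) * a ^ 2 * (K ^ (2 * m) * b ^ 2) :=
              mul_le_mul hA4 hB4 hEB0 (by positivity)
          _ = _ := by ring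
      rw [hexp, sum_lows_insert hi m, ← ha, ← hb]
      have h62 := mul_le_mul_of_nonneg_left h2 hEAB0
      have h44 := mul_le_mul_of_nonneg_left h4 hEB0
      have hk : 3 * κ * (K ^ (2 * m) * b ^ 2) ≤ K ^ 2 * (K ^ (2 * m) * b ^ 2) :=
        mul_le_mul_of_nonneg_right hKκ (by positivity)
      have hκ0 : 0 ≤ κ := hk40.trans h4
      have hk' := mul_le_mul_of_nonneg_left hB4 hκ0
      have h8 : 8 * (K ^ (2 * m + 1) * (a * b)) ≤ 2 * K * (K ^ (2 * m + 1) * (a * b)) :=
        mul_le_mul_of_nonneg_right (by linarith) (by positivity)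
      have hfin : K ^ (2 * (m + 1)) * (a + b) ^ 2 = K ^ (2 * (m + 1)) * a ^ 2
          + 2 * K * (K ^ (2 * m + 1) * (a * b)) + K ^ 2 * (K ^ (2 * m) * b ^ 2) := by ring
      rw [hfin]
      linarith

/-- a function of small support correlates little with polynomials of degree `m` -/
theorem corr_le {ν : α → ℝ} (hν0 : ∀ a, 0 ≤ ν a) (hν : ∑ a, ν a = 1) {φ : α → ℝ} {κ K : ℝ}
    (h1 : ∑ a, ν a * φ a = 0) (h2 : ∑ a, ν a * φ a ^ 2 ≤ 1) (h4 : ∑ a, ν a * φ a ^ 4 ≤ κ)
    (hK : 4 ≤ K) (hKκ : 3 * κ ≤ K ^ 2) (H : (E → α) → ℝ) (m : ℕ) :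
    ∑ U ∈ lows univ m, ev ν (fun x => H x * mono φ U x) ^ 2
      ≤ K ^ m * √(ev ν fun x => if H x = 0 then 0 else 1) * ev ν (fun x => H x ^ 2) := by
  set c := fun U : Finset E => ev ν (fun x => H x * mono φ U x) with hc
  set W := ∑ U ∈ lows univ m, c U ^ 2 with hW
  set g := poly φ univ m c with hg
  set ind := fun x => if H x = 0 then (0 : ℝ) else 1 with hind
  set P := ev ν ind with hP
  have hP0 : 0 ≤ P := ev_nonneg hν0 fun x => by simp only [hind]; split_ifs <;> norm_num
  have hQ0 : 0 ≤ ev ν (fun x => H x ^ 2) := ev_nonneg hν0 fun x => sq_nonneg _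
  have hW0 : 0 ≤ W := sum_nonneg fun U _ => sq_nonneg _
  have hWg : W = ev ν fun x => H x * (ind x * g x) := by
    have : ∀ x, H x * (ind x * g x) = ∑ U ∈ lows univ m, c U * (H x * mono φ U x) := by
      intro x
      by_cases hx : H x = 0
      · simp [hx, hind]
      · simp only [hind, if_neg hx, one_mul, hg, poly, mul_sum]
        exact sum_congr rfl fun U _ => by ring
    simp only [this, ev_sum, ev_mul]
    exact sum_congr rfl fun U _ => by rw [sq]
  have h1' : W ^ 2 ≤ ev ν (fun x => H x ^ 2) * ev ν (fun x => (ind x * g x) ^ 2) := by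
    rw [hWg]; exact ev_sq_le hν0 _ _
  have h2' : ev ν (fun x => (ind x * g x) ^ 2) ^ 2 ≤ P * (K ^ (2 * m) * W ^ 2) := by
    have e : ∀ x, (ind x * g x) ^ 2 = ind x * g x ^ 2 := fun x => by
      simp only [hind]; split_ifs <;> ring
    have := ev_sq_le hν0 ind fun x => g x ^ 2
    simp only [← pow_mul] at this
    simp only [e]
    refine this.trans (mul_le_mul (le_of_eq ?_) (moment_four hν0 hν h1 h2 h4 hK hKκ univ m c)
      (ev_nonneg hν0 fun x => by rw [pow_mul]; positivity) hP0)
    refine congrArg (ev ν) (funext fun x => ?_)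
    simp only [hind]; split_ifs <;> ring
  have h3 : ev ν (fun x => (ind x * g x) ^ 2) ≤ K ^ m * √P * W := by
    refine le_of_pow_le_pow_left₀ two_ne_zero
      (mul_nonneg (mul_nonneg (pow_nonneg (by linarith) m) (Real.sqrt_nonneg _)) hW0) (h2'.trans (le_of_eq ?_))
    rw [mul_pow, mul_pow, Real.sq_sqrt hP0]; ring
  rcases eq_or_lt_of_le hW0 with h0 | h0
  · change W ≤ _; rw [← h0]
    exact mul_nonneg (mul_nonneg (pow_nonneg (by linarith) m) (Real.sqrt_nonneg _)) hQ0
  · have := h1'.trans (mul_le_mul_of_nonneg_left h3 hQ0)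
    refine le_of_mul_le_mul_right ?_ h0
    change W * W ≤ _
    linarith

end Vale.Agent.P063
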