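import Vale.Agent.P063.Small

/-!
The choice of parameters.
-/

namespace Vale.Agent.P063

open Real

/-- tiny coefficients up to degree `L ^ 2`, with all losses below `L ^ (1/6)` -/
theorem small_upto : ∃ L₀ : ℝ, ∀ L : ℝ, L₀ ≤ L → ∀ (E : Type) [Fintype E] [DecidableEq E] (p : ℝ),
    Inner p → (L ^ 4)⁻¹ ≤ p * (1 - p) → ∀ s : ℝ, 1 ≤ s → s ≤ L ^ 2 →
      Small E p s (s * L ^ ((1 : ℝ) / 6)) (L ^ 20)⁻¹ := by
  refine ⟨max 4 ((574 * 10 ^ 8 * 8100) ^ (90 : ℝ)), fun L hL E _ _ p hp hpv s hs hsL => ?_⟩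
  have hL4 : 4 ≤ L := (le_max_left _ _).trans hL
  have hL0 : 0 < L := by linarith
  have hL1 : 1 ≤ L := by linarith
  set ℓ := log L with hℓ
  have hl2 := Real.log_two_gt_d9
  have hℓ1 : 1 ≤ ℓ := by
    have : log 4 ≤ ℓ := log_le_log (by norm_num) hL4
    rw [show (4 : ℝ) = 2 ^ 2 by norm_num, log_pow] at this
    push_cast at this
    linarith
  have hD : 1 ≤ 35 * ℓ := by linarith
  -- the least level above `s`
  obtain ⟨m, hm⟩ := pow_unbounded_of_one_lt (s / 2000) (by norm_num : (1 : ℝ) < 31 / 16)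
  have hex : ∃ j, s ≤ lvl j := ⟨m, by
    rw [div_lt_iff₀ (by norm_num)] at hm
    unfold lvl
    linarith⟩
  classical
  set j := Nat.find hex with hj
  have hjs : s ≤ lvl j := Nat.find_spec hex
  set u := L ^ ((2 : ℝ) / 15) with hu
  have hu1 : 1 ≤ u := one_le_rpow hL1 (by norm_num)
  have h2j : (2 : ℝ) ^ j ≤ 2 * (s * u) := by
    rcases Nat.eq_zero_or_pos j with h0 | h0
    · rw [h0, pow_zero]
      nlinarith
    obtain ⟨k, hk⟩ : ∃ k, j = k + 1 := ⟨j - 1, by omega⟩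
    have hlt : lvl k < s := not_le.1 (Nat.find_min hex (by omega))
    have hks : (31 / 16 : ℝ) ^ k ≤ s := by
      unfold lvl at hlt
      have : (0 : ℝ) < (31 / 16 : ℝ) ^ k := by positivity
      linarith
    have h15 : ((2 : ℝ) ^ k) ^ 15 ≤ (s * u) ^ 15 := by
      calc ((2 : ℝ) ^ k) ^ 15 = ((2 : ℝ) ^ 15) ^ k := by rw [← pow_mul, ← pow_mul, mul_comm]
        _ ≤ ((31 / 16 : ℝ) ^ 16) ^ k := pow_le_pow_left₀ (by norm_num) (by norm_num) k
        _ = ((31 / 16 : ℝ) ^ k) ^ 16 := by rw [← pow_mul, ← pow_mul, mul_comm]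
        _ ≤ s ^ 16 := pow_le_pow_left₀ (by positivity) hks 16
        _ = s ^ 15 * s := by ring
        _ ≤ s ^ 15 * L ^ 2 := mul_le_mul_of_nonneg_left hsL (by positivity)
        _ = (s * u) ^ 15 := by
            rw [mul_pow]
            congr 1
            rw [hu, ← rpow_natCast (L ^ ((2 : ℝ) / 15)) 15, ← rpow_mul hL0.le]
            norm_num
    have := le_of_pow_le_pow_left₀ (by norm_num) (by positivity) h15
    rw [hk, pow_succ]
    linarith
  have h2j3 : (2 : ℝ) ^ j ≤ L ^ 3 := by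
    refine h2j.trans ?_
    have hu2 : 2 * u ≤ L := by
      have hq : u ≤ √L := by
        rw [hu, sqrt_eq_rpow]
        exact rpow_le_rpow_of_exponent_le hL1 (by norm_num)
      have h4 : 2 ≤ √L := le_sqrt_of_sq_le (by linarith)
      have := mul_self_sqrt hL0.le
      nlinarith
    calc 2 * (s * u) = s * (2 * u) := by ring
      _ ≤ L ^ 2 * L := mul_le_mul hsL hu2 (by positivity) (by positivity)
      _ = L ^ 3 := by ring
  have hjℓ : (j : ℝ) + 1 ≤ 7 * ℓ := by
    have := log_le_log (by positivity) h2j3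
    rw [log_pow, log_pow, ← hℓ] at this
    push_cast at this
    have hj0 : (0 : ℝ) ≤ j := Nat.cast_nonneg j
    nlinarith
  have ha : log (hK p) ≤ 6 * ℓ := by
    have hle : hK p ≤ 4 * L ^ 4 := by
      rw [hK, div_le_iff₀ hp.var_pos]
      rw [inv_le_iff_one_le_mul₀ (by positivity)] at hpv
      linarith
    have := log_le_log (by linarith [hp.hK_ge]) hle
    rw [log_mul (by norm_num) (by positivity), log_pow] at this
    have h4 : log 4 ≤ 2 * ℓ := by
      rw [show (4 : ℝ) = 2 ^ 2 by norm_num, log_pow]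
      push_cast
      have := log_le_log (by norm_num) (show (2 : ℝ) ≤ L by linarith)
      linarith
    push_cast at this
    linarith
  refine (small_lvl hp hD j (E := E)).mono hjs ?_ ?_
  · have hlog : ℓ ≤ L ^ ((1 : ℝ) / 90) / (1 / 90) := log_le_rpow_div hL0.le (by norm_num)
    have hsq : ℓ ^ 2 ≤ 8100 * L ^ ((1 : ℝ) / 45) := by
      have := pow_le_pow_left₀ (by linarith) hlog 2
      rw [div_pow, ← rpow_natCast (L ^ ((1 : ℝ) / 90)) 2, ← rpow_mul hL0.le] at this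
      norm_num at this ⊢
      linarith
    have hC : (574 * 10 ^ 8 * 8100 : ℝ) ≤ L ^ ((1 : ℝ) / 90) := by
      have := rpow_le_rpow (by positivity) ((le_max_right _ _).trans hL)
        (show (0 : ℝ) ≤ 1 / 90 by norm_num)
      rwa [← rpow_mul (by norm_num), show (90 : ℝ) * (1 / 90) = 1 by norm_num, rpow_one] at this
    have hj1 : (0 : ℝ) ≤ (j : ℝ) + 1 := by positivity
    have ha0 : 0 ≤ log (hK p) := log_nonneg (by linarith [hp.hK_ge])
    calc (2 : ℝ) ^ j * ((j : ℝ) + 1) * (10 ^ 8 * (log (hK p) + 35 * ℓ))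
        ≤ 2 * (s * u) * (7 * ℓ) * (10 ^ 8 * (41 * ℓ)) := by
          refine mul_le_mul (mul_le_mul h2j hjℓ hj1 (by positivity))
            (mul_le_mul_of_nonneg_left (by linarith) (by norm_num)) (by positivity) (by positivity)
      _ = s * u * (574 * 10 ^ 8 * ℓ ^ 2) := by ring
      _ ≤ s * u * (L ^ ((1 : ℝ) / 90) * L ^ ((1 : ℝ) / 45)) := by
          refine mul_le_mul_of_nonneg_left ?_ (by positivity)
          calc 574 * 10 ^ 8 * ℓ ^ 2 ≤ 574 * 10 ^ 8 * (8100 * L ^ ((1 : ℝ) / 45)) :=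
                mul_le_mul_of_nonneg_left hsq (by norm_num)
            _ = 574 * 10 ^ 8 * 8100 * L ^ ((1 : ℝ) / 45) := by ring
            _ ≤ _ := mul_le_mul_of_nonneg_right hC (by positivity)
      _ = s * L ^ ((1 : ℝ) / 6) := by
          rw [mul_assoc, hu, ← rpow_add hL0, ← rpow_add hL0]
          norm_num
  · have e : exp (-(35 * ℓ)) = (L ^ 35)⁻¹ := by
      rw [exp_neg, show (35 : ℝ) * ℓ = ((35 : ℕ) : ℝ) * log L by push_cast; rfl, exp_nat_mul,
        exp_log hL0]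
    rw [e]
    have h18 : (18 : ℝ) ^ j ≤ L ^ 15 := by
      calc (18 : ℝ) ^ j ≤ ((2 : ℝ) ^ 5) ^ j := pow_le_pow_left₀ (by norm_num) (by norm_num) j
        _ = ((2 : ℝ) ^ j) ^ 5 := by rw [← pow_mul, ← pow_mul, mul_comm]
        _ ≤ (L ^ 3) ^ 5 := pow_le_pow_left₀ (by positivity) h2j3 5
        _ = L ^ 15 := by rw [← pow_mul]
    calc (18 : ℝ) ^ j * (L ^ 35)⁻¹ ≤ L ^ 15 * (L ^ 35)⁻¹ :=
          mul_le_mul_of_nonneg_right h18 (by positivity)
      _ = (L ^ 20)⁻¹ := by field_simp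

/-- few vertices: the orbit is large -/
theorem exp_le_choose {n V : ℕ} (hn : 2 ≤ n) (hV : 2 * (V : ℝ) ≤ √n) :
    exp ((V : ℝ) * log n / 2) ≤ (n.choose V : ℝ) := by
  have hn' : (2 : ℝ) ≤ n := by exact_mod_cast hn
  have hroot : exp ((V : ℝ) * log n / 2) = √n ^ V := by
    rw [mul_div_assoc, exp_nat_mul, ← log_sqrt (by linarith), exp_log (sqrt_pos.2 (by linarith))]
  rw [hroot]
  rcases Nat.eq_zero_or_pos V with rfl | hV0
  · simp
  have hV' : (1 : ℝ) ≤ V := by exact_mod_cast hV0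
  have hsq := mul_self_sqrt (show (0 : ℝ) ≤ n by linarith)
  have hs1 : 1 ≤ √(n : ℝ) := one_le_sqrt.2 (by linarith)
  have hVn : V ≤ n + 1 := by
    have : (V : ℝ) ≤ n + 1 := by nlinarith
    exact_mod_cast this
  refine le_trans ?_ (Nat.pow_le_choose (α := ℝ) V n)
  rw [le_div_iff₀ (by positivity)]
  calc √(n : ℝ) ^ V * (Nat.factorial V : ℝ) ≤ √(n : ℝ) ^ V * (V : ℝ) ^ V :=
        mul_le_mul_of_nonneg_left (by exact_mod_cast Nat.factorial_le_pow V) (by positivity)
    _ = (√(n : ℝ) * V) ^ V := (mul_pow _ _ _).symm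
    _ ≤ _ := by
        push_cast [Nat.cast_sub hVn]
        exact pow_le_pow_left₀ (by positivity) (by nlinarith) V

end Vale.Agent.P063
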