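import Vale.Agent.P063.Stmt

/-!
The orbit bound and the thinning of a dense edge set.
-/

namespace Vale.Agent.P063

open Finset

variable {n r : ℕ}

theorem mem_verts {T : Finset (Edge n r)} {v : Fin n} :
    v ∈ verts T ↔ ∃ e ∈ T, v ∈ e.1 := by
  simp [verts]

theorem verts_image (π : Equiv.Perm (Fin n)) (T : Finset (Edge n r)) :
    verts (T.image (edgePerm π)) = (verts T).map π.toEmbedding := by
  ext v
  simp only [mem_verts, mem_image, mem_map, Equiv.coe_toEmbedding]
  constructor
  · rintro ⟨e, ⟨a, ha, rfl⟩, hv⟩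
    obtain ⟨w, hw, rfl⟩ := mem_map.1 hv
    exact ⟨w, ⟨a, ha, hw⟩, rfl⟩
  · rintro ⟨w, ⟨a, ha, hw⟩, rfl⟩
    exact ⟨edgePerm π a, ⟨a, ha, rfl⟩, mem_map_of_mem _ hw⟩

/-- a symmetric weight of total at most one is at most the inverse of the orbit size -/
theorem le_inv_choose (g : Finset (Edge n r) → ℝ) (h0 : ∀ T, 0 ≤ g T)
    (hs : ∀ (π : Equiv.Perm (Fin n)) (T : Finset (Edge n r)), g (T.image (edgePerm π)) = g T)
    (h1 : ∑ T, g T ≤ 1) (T : Finset (Edge n r)) :
    g T * (n.choose (verts T).card) ≤ 1 := by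
  classical
  set W := (univ : Finset (Fin n)).powersetCard (verts T).card
  have hW : ∀ w ∈ W, ∃ π : Equiv.Perm (Fin n), (verts T).map π.toEmbedding = w := by
    intro w hw
    have hc : (verts T).card = w.card := (mem_powersetCard.1 hw).2.symm
    let e : {x // x ∈ verts T} ≃ {x // x ∈ w} := Finset.equivOfCardEq hc
    refine ⟨e.extendSubtype, eq_of_subset_of_card_le (fun x hx => ?_) (by simp [hc])⟩
    obtain ⟨y, hy, rfl⟩ := mem_map.1 hx
    exact Equiv.extendSubtype_mem e y hy
  choose π hπ using hW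
  have hinj : ∀ a ∈ W.attach, ∀ b ∈ W.attach,
      T.image (edgePerm (π a.1 a.2)) = T.image (edgePerm (π b.1 b.2)) → a = b := by
    intro a _ b _ hab
    have := congrArg verts hab
    rw [verts_image, verts_image, hπ, hπ] at this
    exact Subtype.ext this
  calc g T * (n.choose (verts T).card)
      = ∑ a ∈ W.attach, g (T.image (edgePerm (π a.1 a.2))) := by
        simp [hs, W, card_powersetCard, mul_comm]
    _ = ∑ U ∈ W.attach.image (fun a => T.image (edgePerm (π a.1 a.2))), g U :=
        (sum_image hinj).symm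
    _ ≤ ∑ U, g U := sum_le_sum_of_subset_of_nonneg (subset_univ _) fun U _ _ => h0 U
    _ ≤ 1 := h1

open Classical in
theorem exists_good_thinning {R : ℕ} (hR : 2 ≤ R) (hr : 1 ≤ r)
    (S : Finset (Edge n r)) (hS : 2 * ((verts S).card * R) ≤ S.card) :
    (1 / 5 : ℝ) ≤ ev (nu (1 / (R : ℝ))) (fun b =>
      if ((S ∩ setOfBits b).card : ℝ) ≤ 16 * S.card / R ∧
          ((S.card : ℝ) / 2) ^ (1 / (r : ℝ)) / 4 ≤ ((verts (S ∩ setOfBits b)).card : ℝ)
      then 1 else 0) := by
  set p : ℝ := 1 / (R : ℝ) with hp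
  have hR' : (2 : ℝ) ≤ R := by exact_mod_cast hR
  have hp0 : 0 ≤ p := by positivity
  have hp1 : p ≤ 1 := by rw [hp, div_le_one (by linarith)]; linarith
  have hν := nu_nonneg hp0 hp1
  rcases S.eq_empty_or_nonempty with rfl | hne
  · refine le_trans (by norm_num : (1 / 5 : ℝ) ≤ 1)
      ((ev_const (E := Edge n r) (sum_nu p) 1).ge.trans (ev_mono hν fun b => le_of_eq ?_))
    have hr0 : (0 : ℝ) ^ ((r : ℝ)⁻¹) = 0 := Real.zero_rpow (by positivity)
    simp [verts, hr0]
  have hs : (0 : ℝ) < S.card := by exact_mod_cast hne.card_pos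
  set st : Fin n → Finset (Edge n r) := fun v => S.filter fun e => v ∈ e.1 with hst
  set V₀ := (verts S).filter fun v => R ≤ (st v).card with hV₀
  set core := S.filter fun e => e.1 ⊆ V₀ with hcore
  -- most edges are core edges
  have hcard : S.card ≤ 2 * core.card := by
    have hsub : S ⊆ core ∪ ((verts S).filter fun v => ¬ R ≤ (st v).card).biUnion st := by
      intro e he
      by_cases h : e.1 ⊆ V₀
      · exact mem_union_left _ (mem_filter.2 ⟨he, h⟩)
      · obtain ⟨v, hv, hv'⟩ := not_subset.1 h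
        refine mem_union_right _ (mem_biUnion.2 ⟨v, mem_filter.2 ⟨?_, ?_⟩, ?_⟩)
        · exact mem_verts.2 ⟨e, he, hv⟩
        · exact fun hle => hv' (mem_filter.2 ⟨mem_verts.2 ⟨e, he, hv⟩, hle⟩)
        · exact mem_filter.2 ⟨he, hv⟩
    have h2 : (((verts S).filter fun v => ¬ R ≤ (st v).card).biUnion st).card
        ≤ (verts S).card * R :=
      (card_biUnion_le_card_mul _ _ R fun v hv => (not_le.1 (mem_filter.1 hv).2).le).trans
        (Nat.mul_le_mul_right R (card_filter_le _ _))
    have h3 := (card_le_card hsub).trans (card_union_le _ _)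
    omega
  have hVr : (S.card : ℝ) / 2 ≤ (V₀.card : ℝ) ^ r := by
    have h2 : core.card ≤ (V₀.powersetCard r).card :=
      card_le_card_of_injOn (fun e => e.1)
        (fun e he => mem_powersetCard.2 ⟨(mem_filter.1 he).2, e.2⟩)
        (fun a _ b _ hab => Subtype.ext hab)
    rw [card_powersetCard] at h2
    have h3 : S.card ≤ 2 * V₀.card ^ r :=
      hcard.trans (Nat.mul_le_mul_left 2 (h2.trans (Nat.choose_le_pow _ _)))
    have h3' : (S.card : ℝ) ≤ 2 * (V₀.card : ℝ) ^ r := by exact_mod_cast h3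
    linarith
  have hroot : ((S.card : ℝ) / 2) ^ (1 / (r : ℝ)) ≤ V₀.card := by
    calc ((S.card : ℝ) / 2) ^ (1 / (r : ℝ)) ≤ ((V₀.card : ℝ) ^ r) ^ (1 / (r : ℝ)) :=
          Real.rpow_le_rpow (by positivity) hVr (by positivity)
      _ = V₀.card := by
          rw [one_div, Real.pow_rpow_inv_natCast (Nat.cast_nonneg _) (by omega)]
  have hV : (0 : ℝ) < V₀.card := by
    refine lt_of_lt_of_le ?_ hroot
    positivity
  -- the uncovered core vertices
  set unc : Fin n → (Edge n r → Bool) → ℝ := fun v b =>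
    ∏ e, if e ∈ st v then (if b e then 0 else 1) else 1 with hunc
  have hev : ∀ v ∈ V₀, ev (nu p) (unc v) ≤ 1 / 2 := by
    intro v hv
    have hdeg : R ≤ (st v).card := (mem_filter.1 hv).2
    rw [hunc]
    simp only []
    rw [ev_prod_fn (fun e x => if e ∈ st v then (if x = true then (0 : ℝ) else 1) else 1)]
    have : ∀ e, ∑ x, nu p x * (if e ∈ st v then (if x = true then (0 : ℝ) else 1) else 1)
        = if e ∈ st v then 1 - p else 1 := by
      intro e; by_cases h : e ∈ st v <;> simp [h, nu]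
    simp only [this, prod_ite_mem, univ_inter, prod_const]
    refine (pow_le_pow_of_le_one (by linarith) (by linarith) hdeg).trans ?_
    have := Real.one_sub_div_pow_le_exp_neg (t := 1) (n := R) (by exact_mod_cast (by omega : 1 ≤ R))
    refine this.trans ?_
    rw [Real.exp_neg, inv_eq_one_div]
    exact div_le_div_of_nonneg_left zero_le_one (by norm_num)
      (le_trans (by norm_num) (Real.add_one_le_exp 1))
  set lin : (Edge n r → Bool) → ℝ := fun b =>
    4 / (3 * V₀.card) * (∑ v ∈ V₀, unc v b)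
      + R / (16 * S.card) * ∑ e ∈ S, (if b e then (1 : ℝ) else 0) with hlin
  have hlinev : ev (nu p) lin ≤ 4 / (3 * V₀.card) * (V₀.card / 2)
      + R / (16 * S.card) * (S.card * p) := by
    simp only [hlin, ev_add, ev_mul, ev_sum]
    refine add_le_add (mul_le_mul_of_nonneg_left ?_ (by positivity))
      (mul_le_mul_of_nonneg_left (le_of_eq ?_) (by positivity))
    · calc ∑ v ∈ V₀, ev (nu p) (unc v) ≤ ∑ _v ∈ V₀, (1 / 2 : ℝ) := sum_le_sum hev
        _ = V₀.card / 2 := by simp; ring
    · have hone : ∀ e, ev (nu p) (fun b : Edge n r → Bool => if b e then (1 : ℝ) else 0) = p := by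
        intro e
        have h2 : ∀ b : Edge n r → Bool, (if b e then (1 : ℝ) else 0)
            = ∏ e', (if e' = e then (if b e' then (1 : ℝ) else 0) else 1) := fun b => by
          rw [prod_ite_eq' univ e (fun e' => if b e' then (1 : ℝ) else 0), if_pos (mem_univ e)]
        simp only [h2]
        rw [ev_prod_fn (fun e' x => if e' = e then (if x = true then (1 : ℝ) else 0) else 1),
          prod_eq_single e (fun j _ hj => by simp [hj, nu]) (fun h => absurd (mem_univ e) h)]
        simp [nu]
      simp [hone]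
  have hgood : ∀ b : Edge n r → Bool, 1 + (-1) * lin b ≤
      if ((S ∩ setOfBits b).card : ℝ) ≤ 16 * S.card / R ∧
          ((S.card : ℝ) / 2) ^ (1 / (r : ℝ)) / 4 ≤ ((verts (S ∩ setOfBits b)).card : ℝ)
      then 1 else 0 := by
    intro b
    have hY : ∑ e ∈ S, (if b e then (1 : ℝ) else 0) = ((S ∩ setOfBits b).card : ℝ) := by
      rw [sum_boole]
      congr 2
      ext e; simp [mem_setOfBits]
    have hunc1 : ∀ v, 0 ≤ unc v b := fun v => prod_nonneg fun e _ => by split_ifs <;> norm_num
    have hX : (V₀.card : ℝ) - ∑ v ∈ V₀, unc v b ≤ ((verts (S ∩ setOfBits b)).card : ℝ) := by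
      have hcov : ∀ v ∈ V₀, 1 - unc v b ≤ if v ∈ verts (S ∩ setOfBits b) then (1 : ℝ) else 0 := by
        intro v _
        split_ifs with h
        · linarith [hunc1 v]
        · have : unc v b = 1 := prod_eq_one fun e _ => by
            by_cases he : e ∈ st v
            · have hb : ¬ b e = true := fun hb => h (mem_verts.2 ⟨e,
                mem_inter.2 ⟨(mem_filter.1 he).1, mem_setOfBits.2 hb⟩, (mem_filter.1 he).2⟩)
              simp [he, hb]
            · simp [he]
          linarith
      calc (V₀.card : ℝ) - ∑ v ∈ V₀, unc v b = ∑ v ∈ V₀, (1 - unc v b) := by simp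
        _ ≤ ∑ v ∈ V₀, if v ∈ verts (S ∩ setOfBits b) then (1 : ℝ) else 0 := sum_le_sum hcov
        _ ≤ _ := by
            rw [sum_boole]
            exact_mod_cast card_le_card fun v hv => (mem_filter.1 hv).2
    have hX0 : 0 ≤ ∑ v ∈ V₀, unc v b := sum_nonneg fun v _ => hunc1 v
    have hY0 : (0 : ℝ) ≤ (S ∩ setOfBits b).card := Nat.cast_nonneg _
    simp only [hlin, hY]
    split_ifs with h
    · nlinarith [mul_nonneg (by positivity : (0 : ℝ) ≤ 4 / (3 * V₀.card)) hX0,
        mul_nonneg (by positivity : (0 : ℝ) ≤ R / (16 * S.card)) hY0]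
    · rw [not_and_or, not_le, not_le] at h
      rcases h with h | h
      · have : 1 < (R : ℝ) / (16 * S.card) * (S ∩ setOfBits b).card := by
          rw [div_mul_eq_mul_div, lt_div_iff₀ (by positivity)]
          rw [div_lt_iff₀ (by linarith)] at h
          linarith
        have := mul_nonneg (by positivity : (0 : ℝ) ≤ 4 / (3 * V₀.card)) hX0
        linarith
      · have : 1 < 4 / (3 * (V₀.card : ℝ)) * ∑ v ∈ V₀, unc v b := by
          rw [div_mul_eq_mul_div, lt_div_iff₀ (by positivity)]
          linarith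
        have := mul_nonneg (by positivity : (0 : ℝ) ≤ R / (16 * S.card)) hY0
        linarith
  refine le_trans ?_ (ev_mono hν hgood)
  rw [ev_add, ev_const (sum_nu p), ev_mul]
  have hval : 4 / (3 * (V₀.card : ℝ)) * (V₀.card / 2) + R / (16 * S.card) * (S.card * p)
      = 2 / 3 + 1 / 16 := by
    rw [hp]; field_simp; norm_num
  linarith

end Vale.Agent.P063
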