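import Vale.Agent.P063.Small
import Vale.Agent.P063.Sym
import Vale.Agent.P063.Params

/-!
Invariant functions have large influence.
-/

namespace Vale.Agent.P063

open Finset Real Filter

section Thin

variable {E : Type*} [Fintype E] [DecidableEq E] {p : ℝ}

/-- the law of a pair: a bit of the random set and a bit of the point -/
def nu2 (ρ p : ℝ) : Bool × Bool → ℝ := fun c => nu ρ c.1 * nu p c.2

/-- the character outside the random set -/
noncomputable def chi2 (p : ℝ) : Bool × Bool → ℝ := fun c => if c.1 then 0 else chi1 p c.2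

theorem sum_nu2 (ρ p : ℝ) : ∑ c, nu2 ρ p c = 1 := by
  rw [Fintype.sum_prod_type]
  simp only [nu2, ← mul_sum, sum_nu, mul_one]

theorem mean_chi2 (ρ p : ℝ) : ∑ c, nu2 ρ p c * chi2 p c = 0 := by
  rw [Fintype.sum_prod_type]
  simp [nu2, chi2, nu, chi1]
  ring

theorem chi2_pow (ρ p : ℝ) (k : ℕ) (hk : k ≠ 0) :
    ∑ c, nu2 ρ p c * chi2 p c ^ k = (1 - ρ) * ∑ b, nu p b * chi1 p b ^ k := by
  rw [Fintype.sum_prod_type, mul_sum]
  simp [nu2, chi2, nu, zero_pow hk]
  ring

/-- the probability that a random set meets `S` exactly in `T` -/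
theorem ev_meet (ρ : ℝ) {S T : Finset E} (hT : T ⊆ S) :
    ev (nu ρ) (fun b : E → Bool => if S ∩ setOfBits b = T then (1 : ℝ) else 0)
      = ρ ^ T.card * (1 - ρ) ^ (S \ T).card := by
  let g : E → Bool → ℝ := fun i b =>
    if i ∈ T then (if b then 1 else 0) else if i ∈ S then (if b then 0 else 1) else 1
  have hg : ∀ b : E → Bool, (if S ∩ setOfBits b = T then (1 : ℝ) else 0) = ∏ i, g i (b i) := by
    intro b
    split_ifs with h
    · refine (prod_eq_one fun i _ => ?_).symm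
      simp only [g]
      by_cases hiT : i ∈ T
      · have hh := hiT
        rw [← h, mem_inter, mem_setOfBits] at hh
        simp [hiT, hh.2]
      · by_cases hiS : i ∈ S
        · cases hb : b i with
          | false => simp [hiT, hiS]
          | true => exact absurd (h ▸ mem_inter.2 ⟨hiS, mem_setOfBits.2 hb⟩) hiT
        · simp [hiT, hiS]
    · symm
      by_contra hne
      refine h (ext fun i => ?_)
      have hi : g i (b i) ≠ 0 := fun h0 => hne (prod_eq_zero (mem_univ i) h0)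
      simp only [g] at hi
      rw [mem_inter, mem_setOfBits]
      by_cases hiT : i ∈ T <;> by_cases hiS : i ∈ S <;> cases hb : b i <;>
        simp [hiT, hiS, hb] at hi ⊢
      exact absurd (hT hiT) hiS
  simp only [hg]
  rw [ev_prod_fn g]
  have hval : ∀ i, ∑ b, nu ρ b * g i b
      = (if i ∈ T then ρ else 1) * (if i ∈ S \ T then 1 - ρ else 1) := by
    intro i
    by_cases hiT : i ∈ T
    · simp [g, hiT, nu]
    · by_cases hiS : i ∈ S <;> simp [g, hiT, hiS, nu]
  rw [prod_congr rfl fun i _ => hval i, prod_mul_distrib, prod_ite_mem, prod_ite_mem,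
    univ_inter, univ_inter, prod_const, prod_const]

/-- the probability that the coefficient at `T` of a random restriction is large -/
noncomputable def qbar (ρ p : ℝ) (f : (E → Bool) → ℝ) (T : Finset E) : ℝ :=
  ∑ S ∈ univ.filter (fun S : Finset E => T ⊆ S), ρ ^ T.card * (1 - ρ) ^ (S \ T).card
    * fhat p f S ^ 2

theorem qbar_eq (hp : Inner p) (ρ : ℝ) (f : (E → Bool) → ℝ) (T : Finset E) :
    ev (nu ρ) (fun b => ev (nu p) fun x => res p f (setOfBits b) T x ^ 2) = qbar ρ p f T := by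
  have h : ∀ b : E → Bool, ev (nu p) (fun x => res p f (setOfBits b) T x ^ 2)
      = ∑ S ∈ univ.filter (fun S : Finset E => T ⊆ S),
        fhat p f S ^ 2 * if S ∩ setOfBits b = T then 1 else 0 := by
    intro b
    by_cases hT : T ⊆ setOfBits b
    · rw [ev_res_sq hp f hT, sum_filter, sum_filter]
      refine sum_congr rfl fun S _ => ?_
      by_cases hS : S ∩ setOfBits b = T
      · have hsub : T ⊆ S := hS ▸ inter_subset_left
        rw [if_pos hS, if_pos hsub, if_pos hS, mul_one]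
      · rw [if_neg hS]; split_ifs <;> simp
    · have : ∀ S : Finset E, S ∩ setOfBits b ≠ T := fun S h' => hT (h' ▸ inter_subset_right)
      simp [res_zero p f hT, this, ev_const (sum_nu p)]
  simp only [h, ev_sum, ev_mul]
  refine sum_congr rfl fun S hS => ?_
  rw [ev_meet ρ (mem_filter.1 hS).2, mul_comm]

theorem sum_qbar_le (hp : Inner p) {ρ : ℝ} (h0 : 0 ≤ ρ) (h1 : ρ ≤ 1) {f : (E → Bool) → ℝ}
    (hf : IsBool f) : ∑ T, qbar ρ p f T ≤ 1 := by
  simp only [← qbar_eq hp ρ f, ← ev_sum]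
  refine (ev_mono (nu_nonneg h0 h1) fun b => ?_).trans (le_of_eq (ev_const (sum_nu ρ) 1))
  exact (ev_mono hp.nonneg fun x => sum_res_sq_le hp hf _ x univ).trans
    (le_of_eq (ev_const (sum_nu p) 1))

/-- the small part of the coefficient at `T` of a random restriction -/
noncomputable def smallPart (p Λ : ℝ) (f : (E → Bool) → ℝ) (b : E → Bool) (T : Finset E)
    (x : E → Bool) : ℝ :=
  res p f (setOfBits b) T x - big p Λ f (setOfBits b) T x

/-- the large part, as a function of the random set and the point -/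
noncomputable def bigPart (p Λ : ℝ) (f : (E → Bool) → ℝ) (T : Finset E) (ω : E → Bool × Bool) : ℝ :=
  big p Λ f (setOfBits fun i => (ω i).1) T fun i => (ω i).2

theorem big_eq_zero (Λ : ℝ) (f : (E → Bool) → ℝ) {J T : Finset E} (x : E → Bool) (h : ¬ T ⊆ J) :
    big p Λ f J T x = 0 := by
  simp [big, res_zero p f h x]

/-- one coefficient through the two parts -/
theorem weight_split_le {ρ : ℝ} (hρ0 : 0 < ρ) (hρ1 : ρ ≤ 1 / 2) (Λ : ℝ) (f : (E → Bool) → ℝ)
    {S T : Finset E} (hsub : T ⊆ S) :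
    ev (nu ρ) (fun b : E → Bool => if S ∩ setOfBits b = T then fhat p f S ^ 2 else 0)
      ≤ 2 * ev (nu ρ) (fun b : E → Bool =>
          if S ∩ setOfBits b = T then fhat p (smallPart p Λ f b T) (S \ T) ^ 2 else 0)
        + 2 * ((ρ ^ T.card * (1 - ρ) ^ (S \ T).card)⁻¹
            * ev (nu2 ρ p) (fun ω => bigPart p Λ f T ω * mono (chi2 p) (S \ T) ω) ^ 2) := by
  classical
  have hν0 : ∀ b, 0 ≤ nu ρ b := nu_nonneg hρ0.le (by linarith)
  set wS := fun S : Finset E => ρ ^ T.card * (1 - ρ) ^ (S \ T).card with hwS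
  set W := fun (T S : Finset E) =>
    ev (nu ρ) fun b : E → Bool => if S ∩ setOfBits b = T then fhat p f S ^ 2 else 0 with hW
  change W T S ≤ 2 * _ + 2 * ((wS S)⁻¹ * _)
  have hwS0 : 0 < wS S := mul_pos (pow_pos hρ0 _) (pow_pos (by linarith) _)
  set ind := fun b : E → Bool => if S ∩ setOfBits b = T then (1 : ℝ) else 0 with hind
  have hEind : ev (nu ρ) ind = wS S := ev_meet ρ hsub
  set α := fun b => fhat p (smallPart p Λ f b T) (S \ T) with hα
  set β := fun b => fhat p (big p Λ f (setOfBits b) T) (S \ T) with hβ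
  have hsplit : ∀ b, ind b * fhat p f S = ind b * α b + ind b * β b := by
    intro b
    simp only [hind]
    split_ifs with hb
    · have hTJ : T ⊆ setOfBits b := hb ▸ inter_subset_right
      have hU : Disjoint (S \ T) (setOfBits b) := disjoint_left.2 fun i hi hiJ =>
        (mem_sdiff.1 hi).2 (hb ▸ mem_inter.2 ⟨(mem_sdiff.1 hi).1, hiJ⟩)
      have hSe : T ∪ S \ T = S := union_sdiff_of_subset hsub
      simp only [one_mul, hα, hβ]
      conv_lhs => rw [← hSe, ← fhat_res p f hTJ hU]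
      rw [fhat, fhat, fhat, ← ev_add]
      exact congrArg (ev (nu p)) (funext fun x => by simp only [smallPart]; ring)
    · simp
  have hmain : wS S * fhat p f S
      = ev (nu ρ) (fun b => ind b * α b) + ev (nu ρ) fun b => ind b * β b := by
    rw [← ev_add, ← hEind, mul_comm, ← ev_mul]
    exact congrArg (ev (nu ρ)) (funext fun b => by rw [mul_comm]; exact hsplit b)
  have hcs : ev (nu ρ) (fun b => ind b * α b) ^ 2
      ≤ wS S * ev (nu ρ) fun b => ind b * α b ^ 2 := by
    have := ev_sq_le hν0 ind fun b => ind b * α b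
    have e1 : ∀ b, ind b * (ind b * α b) = ind b * α b := fun b => by
      simp only [hind]; split_ifs <;> ring
    have e2 : ∀ b, ind b ^ 2 = ind b := fun b => by simp only [hind]; split_ifs <;> ring
    have e3 : ∀ b, (ind b * α b) ^ 2 = ind b * α b ^ 2 := fun b => by rw [mul_pow, e2]
    simp only [e1, e2, e3, hEind] at this
    exact this
  have hW' : W T S = wS S * fhat p f S ^ 2 := by
    simp only [hW]
    rw [← hEind, mul_comm, ← ev_mul]
    exact congrArg (ev (nu ρ)) (funext fun b => by simp only [hind]; split_ifs <;> ring)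
  have hα2 : ev (nu ρ) (fun b : E → Bool =>
      if S ∩ setOfBits b = T then fhat p (smallPart p Λ f b T) (S \ T) ^ 2 else 0)
      = ev (nu ρ) fun b => ind b * α b ^ 2 :=
    congrArg (ev (nu ρ)) (funext fun b => by simp only [hind, hα]; split_ifs <;> ring)
  have hω : ev (nu2 ρ p) (fun ω => bigPart p Λ f T ω * mono (chi2 p) (S \ T) ω)
      = ev (nu ρ) fun b => ind b * β b := by
    rw [show nu2 ρ p = fun c => nu ρ c.1 * nu p c.2 from rfl, ev_pair]
    refine congrArg (ev (nu ρ)) (funext fun b => ?_)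
    simp only [bigPart, hind, hβ, fhat]
    rw [← ev_mul]
    refine congrArg (ev (nu p)) (funext fun x => ?_)
    by_cases hTJ : T ⊆ setOfBits b
    · by_cases hb : S ∩ setOfBits b = T
      · rw [if_pos hb, one_mul, mono, chi]
        congr 1
        refine prod_congr rfl fun i hi => ?_
        have : b i = false := by
          refine Bool.eq_false_iff.2 fun hbi => (mem_sdiff.1 hi).2 ?_
          exact hb ▸ mem_inter.2 ⟨(mem_sdiff.1 hi).1, mem_setOfBits.2 hbi⟩
        simp [chi2, this]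
      · rw [if_neg hb, zero_mul]
        refine mul_eq_zero_of_right _ ?_
        have : ∃ i ∈ S \ T, b i = true := by
          by_contra hcon
          push Not at hcon
          refine hb (subset_antisymm (fun i hi => ?_) fun i hi =>
            mem_inter.2 ⟨hsub hi, hTJ hi⟩)
          by_contra hiT
          exact hcon i (mem_sdiff.2 ⟨(mem_inter.1 hi).1, hiT⟩)
            (mem_setOfBits.1 (mem_inter.1 hi).2)
        obtain ⟨i, hi, hbi⟩ := this
        exact prod_eq_zero hi (by simp [chi2, hbi])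
    · rw [big_eq_zero _ _ _ hTJ]
      simp
  rw [hW', hω, hα2]
  set A := ev (nu ρ) fun b => ind b * α b
  set B := ev (nu ρ) fun b => ind b * β b
  set A2 := ev (nu ρ) fun b => ind b * α b ^ 2
  have hfS : fhat p f S = (A + B) / wS S := by rw [eq_div_iff hwS0.ne', mul_comm]; exact hmain
  have hd : A ^ 2 / wS S ≤ A2 := by rw [div_le_iff₀ hwS0]; linarith
  have : wS S * ((A + B) / wS S) ^ 2 ≤ 2 * (A ^ 2 / wS S) + 2 * ((wS S)⁻¹ * B ^ 2) := by
    rw [show wS S * ((A + B) / wS S) ^ 2 = (A + B) ^ 2 / wS S by field_simp,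
      show 2 * (A ^ 2 / wS S) + 2 * ((wS S)⁻¹ * B ^ 2) = (2 * A ^ 2 + 2 * B ^ 2) / wS S by
        field_simp]
    exact div_le_div_of_nonneg_right (by nlinarith [sq_nonneg (A - B)]) hwS0.le
  rw [hfS]
  linarith

/-- the large part correlates little with low degree outside the random set -/
theorem sum_corr_le (hp : Inner p) {ρ : ℝ} (hρ0 : 0 < ρ) (hρ1 : ρ ≤ 1 / 2) (Λ : ℝ)
    (f : (E → Bool) → ℝ) (T : Finset E) (N : ℕ) :
    ∑ U ∈ lows univ N, ev (nu2 ρ p) (fun ω => bigPart p Λ f T ω * mono (chi2 p) U ω) ^ 2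
      ≤ hK p ^ N * √(exp Λ * qbar ρ p f T) * ev (nu2 ρ p) fun ω => bigPart p Λ f T ω ^ 2 := by
  have hν0 : ∀ b, 0 ≤ nu ρ b := nu_nonneg hρ0.le (by linarith)
  have hK0 : 0 ≤ hK p := by linarith [hp.hK_ge]
  refine (corr_le (ν := nu2 ρ p) (fun c => mul_nonneg (hν0 _) (hp.nonneg _))
    (sum_nu2 ρ p) (mean_chi2 ρ p) ?_ ?_ (by linarith [hp.hK_ge]) hp.hK_sq (bigPart p Λ f T) N).trans ?_
  · rw [chi2_pow ρ p 2 two_ne_zero, sq_chi1 hp]; linarith
  · rw [chi2_pow ρ p 4 (by norm_num)]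
    exact (mul_le_of_le_one_left (sum_nonneg fun c _ =>
      mul_nonneg (hp.nonneg _) (by positivity)) (by linarith)).trans (four_chi1 hp)
  · refine mul_le_mul_of_nonneg_right (mul_le_mul_of_nonneg_left ?_ (pow_nonneg hK0 N))
      (ev_nonneg (fun c => mul_nonneg (hν0 _) (hp.nonneg _)) fun ω => sq_nonneg _)
    refine Real.sqrt_le_sqrt ?_
    rw [← qbar_eq hp ρ f, ← ev_mul, show nu2 ρ p = fun c => nu ρ c.1 * nu p c.2 from rfl,
      ev_pair]
    refine ev_mono hν0 fun b => ?_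
    exact (pbig_le hp Λ f (setOfBits b) T).trans (mul_le_mul_of_nonneg_left
      (ev_mono hp.nonneg fun x => big_sq_le p Λ f _ T x) (exp_pos _).le)

/-- sets that keep a good part in a thin random set carry little weight -/
theorem thin_le (hp : Inner p) {ρ : ℝ} (hρ0 : 0 < ρ) (hρ1 : ρ ≤ 1 / 2) {t Λ ε : ℝ}
    (h : Small E p t Λ ε) (hε : 0 ≤ ε) {f : (E → Bool) → ℝ} (hf : IsBool f) (N : ℕ)
    (G : Finset (Finset E)) (hG : ∀ T ∈ G, (T.card : ℝ) ≤ t) {κ : ℝ}
    (hκ0 : 0 ≤ κ)
    (hκ : ∀ T ∈ G, (ρ ^ T.card * (1 / 2) ^ N)⁻¹ * (hK p ^ N * √(exp Λ * qbar ρ p f T)) ≤ κ)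
    (𝒮 : Finset (Finset E)) (hN : ∀ S ∈ 𝒮, S.card ≤ N)
    (hgood : ∀ S ∈ 𝒮, (1 / 5 : ℝ)
      ≤ ev (nu ρ) fun b => if S ∩ setOfBits b ∈ G then 1 else 0) :
    ∑ S ∈ 𝒮, fhat p f S ^ 2 ≤ 10 * (ε * (1 + tinf p f) + κ) := by
  classical
  have hρ' : 0 ≤ ρ := hρ0.le
  have hν0 : ∀ b, 0 ≤ nu ρ b := nu_nonneg hρ' (by linarith)
  have hK0 : 0 ≤ hK p := by linarith [hp.hK_ge]
  set W := fun (T S : Finset E) =>
    ev (nu ρ) fun b : E → Bool => if S ∩ setOfBits b = T then fhat p f S ^ 2 else 0 with hW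
  have h5 : ∀ S ∈ 𝒮, fhat p f S ^ 2 ≤ 5 * ∑ T ∈ G, W T S := by
    intro S hS
    have : ∑ T ∈ G, W T S
        = fhat p f S ^ 2 * ev (nu ρ) fun b => if S ∩ setOfBits b ∈ G then 1 else 0 := by
      simp only [hW]
      rw [← ev_sum, ← ev_mul]
      refine congrArg (ev (nu ρ)) (funext fun b => ?_)
      rw [sum_ite_eq]
      split_ifs <;> simp
    rw [this]
    nlinarith [mul_le_mul_of_nonneg_left (hgood S hS) (sq_nonneg (fhat p f S))]
  refine (sum_le_sum h5).trans ?_
  rw [← mul_sum, sum_comm]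
  have hT : ∀ T ∈ G, ∑ S ∈ 𝒮, W T S
      ≤ 2 * ev (nu ρ) (fun b => ev (nu p) fun x => smallPart p Λ f b T x ^ 2)
        + 2 * (κ * ev (nu2 ρ p) fun ω => bigPart p Λ f T ω ^ 2) := by
    intro T hTG
    set wS := fun S : Finset E => ρ ^ T.card * (1 - ρ) ^ (S \ T).card with hwS
    have hS1 : ∀ S ∈ 𝒮.filter (fun S => T ⊆ S), W T S
        ≤ 2 * ev (nu ρ) (fun b : E → Bool =>
            if S ∩ setOfBits b = T then fhat p (smallPart p Λ f b T) (S \ T) ^ 2 else 0)
          + 2 * ((wS S)⁻¹ * ev (nu2 ρ p) (fun ω => bigPart p Λ f T ω * mono (chi2 p) (S \ T) ω) ^ 2) := by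
      intro S hS
      exact weight_split_le hρ0 hρ1 Λ f (mem_filter.1 hS).2
    have hrest : ∑ S ∈ 𝒮, W T S = ∑ S ∈ 𝒮.filter (fun S => T ⊆ S), W T S := by
      symm
      refine sum_filter_of_ne fun S _ hne => ?_
      by_contra hsub
      refine hne ?_
      simp only [hW]
      refine sum_eq_zero fun b _ => mul_eq_zero_of_right _ (if_neg fun h' => hsub ?_)
      exact h' ▸ inter_subset_left
    rw [hrest]
    refine (sum_le_sum hS1).trans ?_
    rw [sum_add_distrib, ← mul_sum, ← mul_sum]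
    refine add_le_add (mul_le_mul_of_nonneg_left ?_ zero_le_two)
      (mul_le_mul_of_nonneg_left ?_ zero_le_two)
    · rw [← ev_sum]
      refine ev_mono hν0 fun b => ?_
      rw [← sum_filter, ← parseval hp]
      refine (sum_image (g := fun S => S \ T) (f := fun U => fhat p (smallPart p Λ f b T) U ^ 2) ?_).symm.trans_le
        (sum_le_sum_of_subset_of_nonneg (subset_univ _) fun _ _ _ => sq_nonneg _)
      intro S hS S' hS' e
      simp only [coe_filter, mem_filter, Set.mem_ofPred_eq] at hS hS'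
      replace e : S \ T = S' \ T := e
      rw [← union_sdiff_of_subset hS.1.2, e, union_sdiff_of_subset hS'.1.2]
    · have hc0 : 0 ≤ (ρ ^ T.card * (1 / 2 : ℝ) ^ N)⁻¹ := by positivity
      calc ∑ S ∈ 𝒮.filter (fun S => T ⊆ S),
            (wS S)⁻¹ * ev (nu2 ρ p) (fun ω => bigPart p Λ f T ω * mono (chi2 p) (S \ T) ω) ^ 2
          ≤ ∑ S ∈ 𝒮.filter (fun S => T ⊆ S), (ρ ^ T.card * (1 / 2 : ℝ) ^ N)⁻¹
              * ev (nu2 ρ p) (fun ω => bigPart p Λ f T ω * mono (chi2 p) (S \ T) ω) ^ 2 := by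
            refine sum_le_sum fun S hS => mul_le_mul_of_nonneg_right ?_ (sq_nonneg _)
            refine inv_anti₀ (by positivity) (mul_le_mul_of_nonneg_left ?_ (by positivity))
            calc (1 / 2 : ℝ) ^ N ≤ (1 / 2 : ℝ) ^ (S \ T).card :=
                  pow_le_pow_of_le_one (by norm_num) (by norm_num)
                    ((card_le_card sdiff_subset).trans (hN S (mem_filter.1 hS).1))
              _ ≤ (1 - ρ) ^ (S \ T).card := pow_le_pow_left₀ (by norm_num) (by linarith) _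
        _ = (ρ ^ T.card * (1 / 2 : ℝ) ^ N)⁻¹
              * ∑ U ∈ (𝒮.filter (fun S => T ⊆ S)).image (· \ T),
                ev (nu2 ρ p) (fun ω => bigPart p Λ f T ω * mono (chi2 p) U ω) ^ 2 := by
            rw [← mul_sum, sum_image]
            intro S hS S' hS' e
            simp only [coe_filter, Set.mem_ofPred_eq] at hS hS'
            replace e : S \ T = S' \ T := e
            rw [← union_sdiff_of_subset hS.2, e, union_sdiff_of_subset hS'.2]
        _ ≤ (ρ ^ T.card * (1 / 2 : ℝ) ^ N)⁻¹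
              * (hK p ^ N * √(exp Λ * qbar ρ p f T) * ev (nu2 ρ p) fun ω => bigPart p Λ f T ω ^ 2) := by
            refine mul_le_mul_of_nonneg_left ?_ hc0
            refine (sum_le_sum_of_subset_of_nonneg (fun U hU => ?_)
              fun _ _ _ => sq_nonneg _).trans (sum_corr_le hp hρ0 hρ1 Λ f T N)
            obtain ⟨S, hS, rfl⟩ := mem_image.1 hU
            exact mem_filter.2 ⟨mem_powerset.2 (subset_univ _),
              (card_le_card sdiff_subset).trans (hN S (mem_filter.1 hS).1)⟩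
        _ ≤ κ * ev (nu2 ρ p) fun ω => bigPart p Λ f T ω ^ 2 := by
            rw [← mul_assoc]
            exact mul_le_mul_of_nonneg_right (hκ T hTG)
              (ev_nonneg (fun c => mul_nonneg (hν0 _) (hp.nonneg _)) fun ω => sq_nonneg _)
  refine (mul_le_mul_of_nonneg_left (sum_le_sum hT) (by norm_num : (0 : ℝ) ≤ 5)).trans ?_
  rw [sum_add_distrib, ← mul_sum, ← mul_sum, ← mul_sum]
  have h1 : ∑ T ∈ G, ev (nu ρ) (fun b => ev (nu p) fun x => smallPart p Λ f b T x ^ 2)
      ≤ ε * (1 + tinf p f) := by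
    rw [← ev_sum]
    refine (ev_mono hν0 fun b => ?_).trans (le_of_eq (ev_const (sum_nu ρ) _))
    exact (sum_le_sum_of_subset_of_nonneg (fun T hT' => mem_filter.2 ⟨mem_univ _, hG T hT'⟩)
      fun T _ _ => ev_nonneg hp.nonneg fun x => sq_nonneg _).trans (small_res hp h hε hf _)
  have h2 : ∑ T ∈ G, ev (nu2 ρ p) (fun ω => bigPart p Λ f T ω ^ 2) ≤ 1 := by
    rw [← ev_sum, show nu2 ρ p = fun c => nu ρ c.1 * nu p c.2 from rfl, ev_pair]
    refine (ev_mono hν0 fun b => ?_).trans (le_of_eq (ev_const (sum_nu ρ) 1))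
    rw [ev_sum]
    simp only [bigPart]
    exact sum_ev_big_le hp hf Λ _ G
  have := mul_le_mul_of_nonneg_left h2 hκ0
  linarith

end Thin

section Degrees

variable {n r : ℕ} {p : ℝ}

theorem ev_comp {E α : Type*} [Fintype E] [DecidableEq E] [Fintype α] (ν : α → ℝ) (e : E ≃ E)
    (F : (E → α) → ℝ) : ev ν (fun x => F fun i => x (e i)) = ev ν F := by
  refine Fintype.sum_equiv (e.symm.arrowCongr (Equiv.refl α)) _ _ fun x => ?_
  have hw : prw ν (e.symm.arrowCongr (Equiv.refl α) x) = prw ν x := e.prod_comp fun i => ν (x i)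
  rw [hw]
  rfl

/-- a permutation of the vertices as a permutation of the edges -/
def edgeEquiv (π₀ : Equiv.Perm (Fin n)) : Edge n r ≃ Edge n r where
  toFun := edgePerm π₀
  invFun := edgePerm π₀.symm
  left_inv e := by
    ext v
    simp [edgePerm]
  right_inv e := by
    ext v
    simp [edgePerm]

theorem fhat_image {f : (Edge n r → Bool) → ℝ} (hf : Invariant f) (π₀ : Equiv.Perm (Fin n))
    (S : Finset (Edge n r)) : fhat p f (S.image (edgePerm π₀)) = fhat p f S := by
  rw [fhat, fhat, ← ev_comp (nu p) (edgeEquiv π₀) fun x => f x * chi p S x]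
  refine congrArg (ev (nu p)) (funext fun x => ?_)
  have h1 : chi p (S.image (edgePerm π₀)) x = chi p S fun e => x (edgePerm π₀ e) := by
    rw [chi, chi, prod_image fun a _ b _ (h : edgePerm π₀ a = edgePerm π₀ b) =>
      (edgeEquiv π₀).injective h]
  rw [h1]
  change f x * _ = f (fun e => x (edgePerm π₀ e)) * _
  rw [hf π₀ x]
  rfl

theorem qbar_image {f : (Edge n r → Bool) → ℝ} (hf : Invariant f) (ρ : ℝ) (π₀ : Equiv.Perm (Fin n))
    (T : Finset (Edge n r)) : qbar ρ p f (T.image (edgePerm π₀)) = qbar ρ p f T := by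
  have hinj : Function.Injective (edgePerm (n := n) (r := r) π₀) := (edgeEquiv π₀).injective
  simp only [qbar, sum_filter]
  refine (Fintype.sum_equiv ((edgeEquiv π₀).finsetCongr) _ _ fun S => ?_).symm
  have he : (edgeEquiv π₀).finsetCongr S = S.image (edgePerm π₀) := by
    rw [Equiv.finsetCongr_apply, map_eq_image]
    rfl
  rw [he, ← image_sdiff _ _ hinj, card_image_of_injective _ hinj, card_image_of_injective _ hinj,
    fhat_image hf π₀ S]
  simp only [image_subset_image_iff hinj]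

theorem card_verts_le (T : Finset (Edge n r)) : (verts T).card ≤ T.card * r :=
  card_biUnion_le_card_mul _ _ _ fun e _ => e.2.le

/-- an invariant family of total mass one gives little to a set covering many vertices -/
theorem orbit_le (g : Finset (Edge n r) → ℝ) (h0 : ∀ T, 0 ≤ g T)
    (hs : ∀ π₀ T, g (T.image (edgePerm π₀)) = g T) (h1 : ∑ T, g T ≤ 1) (hn : 2 ≤ n)
    {T : Finset (Edge n r)} (hV : 2 * ((verts T).card : ℝ) ≤ √n) {w : ℝ}
    (hw : w ≤ (verts T).card) : g T ≤ exp (-(w * log n / 2)) := by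
  have h2 := exp_le_choose hn hV
  have h3 := le_inv_choose g h0 hs h1 T
  have hl : 0 ≤ log (n : ℝ) := log_natCast_nonneg n
  have h4 : exp (w * log n / 2) ≤ (n.choose (verts T).card : ℝ) :=
    (exp_le_exp.2 (by nlinarith)).trans h2
  rw [exp_neg, ← one_div, le_div_iff₀ (exp_pos _)]
  exact (mul_le_mul_of_nonneg_left h4 (h0 T)).trans h3

/-- the total cost of the thinning -/
theorem kappa_le (hp : Inner p) {L : ℝ} (hL : 2 ^ 24 ≤ L) (hL0 : 0 < L) {w : ℝ} (hw : 1 / 8 ≤ w)
    {s : ℕ} (hsa : (s : ℝ) * log (hK p) ≤ L * w / 512) {R : ℕ} (hR0 : (0 : ℝ) < R) {B : ℝ}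
    (hBR : B ≤ R) (hBsq : B ≤ √L) {k : ℕ} (hk : (k : ℝ) ≤ 16 * s / R)
    (hs : 1 ≤ (s : ℝ)) {q : ℝ} (hq : q ≤ exp (-(w * L / 2))) :
    ((1 / (R : ℝ)) ^ k * (1 / 2 : ℝ) ^ s)⁻¹
        * (hK p ^ s * √(exp ((16 * (s : ℝ) / R + 1) * B) * q)) ≤ (L ^ 20)⁻¹ := by
  have hsqL : √L * √L = L := mul_self_sqrt hL0.le
  have hsq : (4096 : ℝ) ≤ √L := by
    rw [show (4096 : ℝ) = √(4096 ^ 2) by rw [sqrt_sq (by norm_num)]]
    exact sqrt_le_sqrt (by linarith)
  set a := log (hK p) with ha
  have hK0 : 0 < hK p := by linarith [hp.hK_ge]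
  have ha1 : 1 ≤ a := by
    rw [ha, le_log_iff_exp_le hK0]
    have := exp_one_lt_d9
    linarith [hp.hK_ge]
  have hsle : (s : ℝ) ≤ (s : ℝ) * a := le_mul_of_one_le_right (by positivity) ha1
  have hBw : B ≤ w * L / 64 := by
    have h1 : 512 * √L ≤ √L * √L := mul_le_mul_of_nonneg_right (by linarith) (sqrt_nonneg L)
    have h2 : 1 / 8 * L ≤ w * L := mul_le_mul_of_nonneg_right hw hL0.le
    linarith
  set t := 16 * (s : ℝ) / R + 1 with ht
  have htB : t * B ≤ 16 * s + B := by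
    rw [ht, add_mul, one_mul]
    refine add_le_add ?_ le_rfl
    rw [div_mul_eq_mul_div, div_le_iff₀ hR0]
    exact mul_le_mul_of_nonneg_left hBR (by positivity)
  have hinvR : ((1 / (R : ℝ)) ^ k * (1 / 2 : ℝ) ^ s)⁻¹ ≤ exp (16 * s + s) := by
    rw [mul_inv, ← inv_pow, ← inv_pow, one_div, inv_inv, one_div, inv_inv, exp_add]
    refine mul_le_mul ?_ ?_ (by positivity) (exp_pos _).le
    · calc (R : ℝ) ^ k ≤ exp (R : ℝ) ^ k :=
            pow_le_pow_left₀ hR0.le (by linarith [add_one_le_exp (R : ℝ)]) _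
        _ ≤ exp (16 * s) := by
            rw [← exp_nat_mul, exp_le_exp]
            calc (k : ℝ) * R ≤ 16 * s / R * R := mul_le_mul_of_nonneg_right hk hR0.le
              _ = 16 * s := div_mul_cancel₀ _ hR0.ne'
    · calc (2 : ℝ) ^ s ≤ exp 1 ^ s :=
            pow_le_pow_left₀ (by norm_num) (by linarith [add_one_le_exp (1 : ℝ)]) _
        _ = exp s := by rw [← exp_nat_mul, mul_one]
  have hKs : hK p ^ s = exp (s * a) := by rw [exp_nat_mul, ha, exp_log hK0]
  have hsqrt : √(exp (t * B) * q) ≤ exp ((t * B - w * L / 2) / 2) := by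
    rw [exp_half]
    refine sqrt_le_sqrt ?_
    rw [sub_eq_add_neg, exp_add]
    exact mul_le_mul_of_nonneg_left hq (exp_pos _).le
  refine (mul_le_mul hinvR (mul_le_mul (le_of_eq hKs) hsqrt (sqrt_nonneg _) (exp_pos _).le)
    (by positivity) (exp_pos _).le).trans ?_
  rw [← exp_add, ← exp_add]
  have hlogL : 20 * log L ≤ L / 64 := by
    have h1 : log L ≤ 2 * √L := by
      have h := log_le_sub_one_of_pos (sqrt_pos.2 hL0)
      rw [log_sqrt hL0.le] at h
      linarith [sqrt_nonneg L]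
    have h2 : 2560 * √L ≤ √L * √L := mul_le_mul_of_nonneg_right (by linarith) (sqrt_nonneg L)
    linarith
  calc exp (16 * (s : ℝ) + s + ((s : ℝ) * a + (t * B - w * L / 2) / 2)) ≤ exp (-(L / 64)) := by
        refine exp_le_exp.2 ?_
        have h2 : 1 / 8 * L ≤ w * L := mul_le_mul_of_nonneg_right hw hL0.le
        linarith
    _ ≤ exp (-(20 * log L)) := exp_le_exp.2 (by linarith)
    _ = (L ^ 20)⁻¹ := by
        rw [exp_neg, ← exp_log (show (0 : ℝ) < L ^ 20 by positivity), log_pow]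
        norm_num

/-- the coefficients of one degree -/
theorem degree_le (hr : 2 ≤ r) (hn : 2 ≤ n) {L : ℝ} (hLn : L = log n) (hL : 2 ^ 24 ≤ L)
    (hLr : 96 * (r : ℝ) ≤ L) (hp : Inner p) {s : ℕ} (hs1 : 1 ≤ s) (hsL : (s : ℝ) ≤ L ^ 2)
    (hsa : (s : ℝ) * log (hK p) ≤ L * (((s : ℝ) / 2) ^ (1 / (r : ℝ)) / 4) / 512)
    (hSmall : ∀ t : ℝ, 1 ≤ t → t ≤ L ^ 2 →
      Small (Edge n r) p t (t * L ^ ((1 : ℝ) / 6)) (L ^ 20)⁻¹)
    {f : (Edge n r → Bool) → ℝ} (hf : IsBool f) (hinv : Invariant f) :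
    ∑ S ∈ univ.filter (fun S : Finset (Edge n r) => S.card = s), fhat p f S ^ 2
      ≤ 21 * (L ^ 20)⁻¹ * (1 + tinf p f) := by
  set B := L ^ ((1 : ℝ) / 6) with hB
  set w := ((s : ℝ) / 2) ^ (1 / (r : ℝ)) / 4 with hw
  set η := (L ^ 20)⁻¹ with hη
  have hL0 : 0 < L := lt_of_lt_of_le (by norm_num) hL
  have hη0 : 0 ≤ η := by positivity
  have hB0 : 0 ≤ B := (rpow_pos_of_pos hL0 _).le
  have hs1' : (1 : ℝ) ≤ s := by exact_mod_cast hs1
  have hI : 0 ≤ tinf p f := tinf_nonneg p f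
  have hsqn : ∀ T : Finset (Edge n r), T.card ≤ s → 2 * ((verts T).card : ℝ) ≤ √n := by
    intro T hT
    have h1 : ((verts T).card : ℝ) ≤ s * r := by
      exact_mod_cast (card_verts_le T).trans (Nat.mul_le_mul_right r hT)
    have hn0 : (0 : ℝ) < n := by exact_mod_cast (by omega : 0 < n)
    have h2 : √(n : ℝ) = exp (L / 2) := by
      rw [hLn, exp_half, exp_log hn0]
    have h3 : (L / 2) ^ 3 / (Nat.factorial 3 : ℕ) ≤ exp (L / 2) :=
      pow_div_factorial_le_exp (L / 2) (by linarith) 3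
    norm_num [Nat.factorial] at h3
    have h4 : (s : ℝ) * r ≤ L ^ 2 * r := mul_le_mul_of_nonneg_right hsL r.cast_nonneg
    have h5 : L ^ 2 * (96 * r) ≤ L ^ 2 * L := mul_le_mul_of_nonneg_left hLr (sq_nonneg L)
    rw [h2]
    linarith
  set R := ⌈L ^ ((1 : ℝ) / 3)⌉₊ with hR
  have hsq : (4096 : ℝ) ≤ √L := by
    rw [show (4096 : ℝ) = √(4096 ^ 2) by rw [sqrt_sq (by norm_num)]]
    exact sqrt_le_sqrt (by linarith)
  have hsqL : √L * √L = L := mul_self_sqrt hL0.le
  have h13 : 256 ≤ L ^ ((1 : ℝ) / 3) := by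
    calc (256 : ℝ) = ((2 : ℝ) ^ 24) ^ ((1 : ℝ) / 3) := by
          rw [← rpow_natCast 2 24, ← rpow_mul (by norm_num)]; norm_num
      _ ≤ _ := rpow_le_rpow (by positivity) hL (by norm_num)
  have hRge : L ^ ((1 : ℝ) / 3) ≤ R := Nat.le_ceil _
  have hR2 : 2 ≤ R := by
    have : (2 : ℝ) ≤ R := by linarith
    exact_mod_cast this
  have hR0 : (0 : ℝ) < R := by linarith
  have hRle : (R : ℝ) ≤ 2 * L ^ ((1 : ℝ) / 3) := by
    have := Nat.ceil_lt_add_one (show 0 ≤ L ^ ((1 : ℝ) / 3) by linarith)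
    linarith
  have hBR : B * R ≤ L / 4 := by
    have h1 : L ^ ((1 : ℝ) / 6) * L ^ ((1 : ℝ) / 3) = √L := by
      rw [← rpow_add hL0, sqrt_eq_rpow]; norm_num
    have := mul_le_mul_of_nonneg_left hRle hB0
    have h2 : 8 * √L ≤ √L * √L := mul_le_mul_of_nonneg_right (by linarith) (sqrt_nonneg L)
    linarith
  have hBle : B ≤ L ^ ((1 : ℝ) / 3) := rpow_le_rpow_of_exponent_le (by linarith) (by norm_num)
  have hBsq : B ≤ √L := by
    rw [sqrt_eq_rpow]
    exact rpow_le_rpow_of_exponent_le (by linarith) (by norm_num)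
  classical
  set G := univ.filter (fun T : Finset (Edge n r) =>
    (T.card : ℝ) ≤ 16 * s / R ∧ w ≤ ((verts T).card : ℝ)) with hG
  set dense := univ.filter (fun S : Finset (Edge n r) => S.card = s ∧
    ((verts S).card : ℝ) * L / 2 < (s : ℝ) * B) with hdense
  have hsparse : ∑ S ∈ univ.filter (fun S : Finset (Edge n r) =>
      S.card = s ∧ ¬((verts S).card : ℝ) * L / 2 < (s : ℝ) * B), fhat p f S ^ 2
      ≤ η * (1 + tinf p f) := by
    refine le_trans ?_ (hSmall s hs1' hsL f hf)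
    refine sum_le_sum_of_subset_of_nonneg (fun S hS => ?_) fun _ _ _ => sq_nonneg _
    simp only [mem_filter, mem_univ, true_and, not_lt] at hS ⊢
    refine ⟨by rw [hS.1], ?_⟩
    refine (orbit_le (fun T => fhat p f T ^ 2) (fun T => sq_nonneg _)
      (fun π₀ T => by simp only [fhat_image hinv π₀ T]) (sum_fhat_sq_le hp hf) hn
      (hsqn S hS.1.le) (w := ((verts S).card : ℝ)) le_rfl).trans (exp_le_exp.2 ?_)
    rw [← hLn]
    linarith [hS.2]
  set t := 16 * (s : ℝ) / R + 1 with ht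
  have hsR : 16 * (s : ℝ) / R ≤ s / 16 := by
    rw [div_le_div_iff₀ hR0 (by norm_num)]
    nlinarith
  have htL : t ≤ L ^ 2 := by
    have : (2 : ℝ) ≤ L ^ 2 := by nlinarith
    linarith
  have hdens : ∑ S ∈ dense, fhat p f S ^ 2 ≤ 10 * (η * (1 + tinf p f) + η) := by
    refine thin_le (ρ := 1 / (R : ℝ)) (N := s) hp (by positivity)
      (by gcongr; exact_mod_cast hR2) (hSmall t (by
        have : 0 ≤ 16 * (s : ℝ) / R := by positivity
        linarith) htL) hη0 hf G
      (fun T hT => by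
        have := (mem_filter.1 hT).2.1
        linarith) hη0 (fun T hT => ?_) dense (fun S hS => (mem_filter.1 hS).2.1.le)
      (fun S hS => ?_)
    · simp only [hG, mem_filter, mem_univ, true_and] at hT
      have hTs : T.card ≤ s := by
        have : (T.card : ℝ) ≤ s := by linarith
        exact_mod_cast this
      have hq := orbit_le (qbar (1 / (R : ℝ)) p f) (fun T' => sum_nonneg fun S _ => by
          have : (1 : ℝ) / R ≤ 1 := by rw [div_le_one hR0]; linarith
          have : 0 ≤ 1 - (1 : ℝ) / R := by linarith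
          positivity)
        (fun π₀ T' => qbar_image hinv _ π₀ T')
        (sum_qbar_le hp (by positivity) (by rw [div_le_one hR0]; linarith) hf) hn (hsqn T hTs) hT.2
      rw [← hLn] at hq
      have hwlow : 1 / 8 ≤ w := by
        rw [hw]
        have : (1 / 2 : ℝ) ≤ ((s : ℝ) / 2) ^ (1 / (r : ℝ)) := by
          calc (1 / 2 : ℝ) ≤ (1 / 2 : ℝ) ^ (1 / (r : ℝ)) :=
                self_le_rpow_of_le_one (by norm_num) (by norm_num)
                  (by
                    rw [div_le_one (by exact_mod_cast (by omega : 0 < r))]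
                    exact_mod_cast (by omega : 1 ≤ r))
            _ ≤ _ := rpow_le_rpow (by norm_num) (by linarith) (by positivity)
        linarith
      exact kappa_le hp hL (by linarith) hwlow hsa hR0 (hBle.trans hRge) hBsq hT.1 (by exact_mod_cast hs1') hq
    · simp only [hdense, mem_filter, mem_univ, true_and] at hS
      have hthin : 2 * ((verts S).card * R) ≤ S.card := by
        have h2 : (((verts S).card : ℝ) * L / 2) * R ≤ ((s : ℝ) * B) * R :=
          mul_le_mul_of_nonneg_right hS.2.le hR0.le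
        have h3 : (s : ℝ) * (B * R) ≤ s * (L / 4) := mul_le_mul_of_nonneg_left hBR (by positivity)
        have h4 : 2 * (((verts S).card : ℝ) * R) * L ≤ (s : ℝ) * L := by linarith
        have h5 := le_of_mul_le_mul_right h4 hL0
        rw [hS.1]
        exact_mod_cast h5
      refine (exists_good_thinning hR2 (by omega) S hthin).trans (le_of_eq ?_)
      refine congrArg (ev (nu (1 / (R : ℝ)))) (funext fun b => if_congr ?_ rfl rfl)
      simp [hG, hw, hS.1]
  have hsplit : ∑ S ∈ univ.filter (fun S : Finset (Edge n r) => S.card = s), fhat p f S ^ 2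
      = ∑ S ∈ dense, fhat p f S ^ 2 + ∑ S ∈ univ.filter (fun S : Finset (Edge n r) =>
        S.card = s ∧ ¬((verts S).card : ℝ) * L / 2 < (s : ℝ) * B), fhat p f S ^ 2 := by
    rw [hdense, ← filter_filter, ← filter_filter, sum_filter_add_sum_filter_not]
  rw [hsplit]
  have : η ≤ η * (1 + tinf p f) := le_mul_of_one_le_right hη0 (by linarith)
  linarith

/-- the range of degrees that carry little -/
theorem degree_cond (hr : 2 ≤ r) {L : ℝ} (hL : 0 < L) (hp : Inner p) {s : ℕ}
    (hs : (s : ℝ) ≤ 1 / 2 ^ 28 * (p * (1 - p)) * L ^ ((r : ℝ) / ((r : ℝ) - 1))) :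
    (s : ℝ) * log (hK p) ≤ L * (((s : ℝ) / 2) ^ (1 / (r : ℝ)) / 4) / 512 := by
  set v := p * (1 - p) with hv
  set c : ℝ := 1 / 2 ^ 28 with hc
  have hv0 : 0 < v := hp.var_pos
  have hr1 : (2 : ℝ) ≤ r := by exact_mod_cast hr
  set γ := ((r : ℝ) - 1) / r with hγ
  have hγ2 : 1 / 2 ≤ γ := by rw [hγ, div_le_div_iff₀ (by norm_num) (by linarith)]; linarith
  have hγ0 : 0 ≤ γ := by linarith
  rcases Nat.eq_zero_or_pos s with h0 | hs0
  · subst h0
    have : (0 : ℝ) ≤ L * (((0 : ℕ) : ℝ) / 2) ^ (1 / (r : ℝ)) / 4 / 512 := by positivity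
    simp only [Nat.cast_zero, zero_mul] at this ⊢
    linarith
  have hs' : (0 : ℝ) < s := by exact_mod_cast hs0
  set a := log (hK p) with ha
  have hK0 : 0 < hK p := by linarith [hp.hK_ge]
  have ha0 : 0 ≤ a := log_nonneg (by linarith [hp.hK_ge])
  have hg : (s : ℝ) ^ γ ≤ √c * √v * L := by
    refine (rpow_le_rpow hs'.le hs hγ0).trans ?_
    rw [mul_rpow (by positivity) (rpow_nonneg hL.le _), mul_rpow (by positivity) hv0.le,
      ← rpow_mul hL.le]
    have e : (r : ℝ) / ((r : ℝ) - 1) * γ = 1 := by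
      have : (r : ℝ) - 1 ≠ 0 := by linarith
      have : (r : ℝ) ≠ 0 := by linarith
      rw [hγ]; field_simp
    rw [e, rpow_one, sqrt_eq_rpow, sqrt_eq_rpow]
    refine mul_le_mul_of_nonneg_right (mul_le_mul ?_ ?_ (by positivity) (by positivity)) hL.le
    · exact rpow_le_rpow_of_exponent_ge (by positivity) (by rw [hc]; norm_num) hγ2
    · exact rpow_le_rpow_of_exponent_ge hv0 (by linarith [Inner.var_le p]) hγ2
  have hva : √v * a ≤ 4 := by
    have h1 : a ≤ 2 * √(hK p) := by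
      have h := log_le_sub_one_of_pos (sqrt_pos.2 hK0)
      rw [log_sqrt hK0.le] at h
      linarith [sqrt_nonneg (hK p)]
    have h2 : √v * √(hK p) = 2 := by
      rw [← sqrt_mul hv0.le, hK, ← hv, mul_div_cancel₀ _ hv0.ne',
        show (4 : ℝ) = 2 ^ 2 by norm_num, sqrt_sq (by norm_num)]
    have := mul_le_mul_of_nonneg_left h1 (sqrt_nonneg v)
    linarith
  have hsc : √c = 1 / 2 ^ 14 := by
    rw [hc, show (1 : ℝ) / 2 ^ 28 = (1 / 2 ^ 14) ^ 2 by norm_num, sqrt_sq (by norm_num)]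
  have hmain : (s : ℝ) ^ γ * a ≤ L / 4096 := by
    refine (mul_le_mul_of_nonneg_right hg ha0).trans ?_
    have h2 := mul_le_mul_of_nonneg_left hva hL.le
    rw [hsc]
    linarith
  have hpos : 0 ≤ (s : ℝ) ^ (1 / (r : ℝ)) := rpow_nonneg hs'.le _
  have hsplit : (s : ℝ) * a = (s : ℝ) ^ (1 / (r : ℝ)) * ((s : ℝ) ^ γ * a) := by
    rw [← mul_assoc, ← rpow_add hs']
    have : 1 / (r : ℝ) + γ = 1 := by
      have : (r : ℝ) ≠ 0 := by linarith
      rw [hγ]; field_simp; ring
    rw [this, rpow_one]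
  have hhalf : (s : ℝ) ^ (1 / (r : ℝ)) / 2 ≤ ((s : ℝ) / 2) ^ (1 / (r : ℝ)) := by
    rw [div_rpow hs'.le (by norm_num)]
    refine div_le_div_of_nonneg_left hpos (rpow_pos_of_pos (by norm_num) _) ?_
    refine rpow_le_self_of_one_le (by norm_num) ?_
    rw [div_le_one (by linarith)]
    linarith
  have h1 := mul_le_mul_of_nonneg_left hmain hpos
  have h2 := mul_le_mul_of_nonneg_right hhalf hL.le
  rw [hsplit]
  linarith

/-- the variance through the degrees -/
theorem var_le (hp : Inner p) {f : (Edge n r → Bool) → ℝ} (hf : IsBool f) {M L η : ℝ} (hM0 : 0 < M)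
    (hML : M ≤ L ^ 2) (hη : 0 ≤ η)
    (h : ∀ s : ℕ, 1 ≤ s → (s : ℝ) ≤ M →
      ∑ S ∈ univ.filter (fun S : Finset (Edge n r) => S.card = s), fhat p f S ^ 2
        ≤ η * (1 + tinf p f)) :
    ev (nu p) f * (1 - ev (nu p) f) ≤ L ^ 2 * (η * (1 + tinf p f)) + tinf p f / M := by
  have hI : 0 ≤ tinf p f := tinf_nonneg p f
  have hlow : ∑ S ∈ univ.filter (fun S : Finset (Edge n r) => S.card ≠ 0 ∧ (S.card : ℝ) ≤ M),
      fhat p f S ^ 2 ≤ L ^ 2 * (η * (1 + tinf p f)) := by
    have hmap : ∀ S ∈ univ.filter (fun S : Finset (Edge n r) => S.card ≠ 0 ∧ (S.card : ℝ) ≤ M),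
        S.card ∈ Finset.Icc 1 ⌊M⌋₊ := fun S hS => by
      simp only [mem_filter, mem_univ, true_and] at hS
      exact mem_Icc.2 ⟨Nat.one_le_iff_ne_zero.2 hS.1, Nat.le_floor hS.2⟩
    rw [← sum_fiberwise_of_maps_to hmap]
    refine (sum_le_card_nsmul _ _ (η * (1 + tinf p f)) fun s hs => ?_).trans ?_
    · rw [mem_Icc] at hs
      have hsM : (s : ℝ) ≤ M := (Nat.cast_le.2 hs.2).trans (Nat.floor_le hM0.le)
      refine (sum_le_sum_of_subset_of_nonneg (fun S hS => ?_) fun _ _ _ => sq_nonneg _).trans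
        (h s hs.1 hsM)
      exact mem_filter.2 ⟨mem_univ _, (mem_filter.1 hS).2⟩
    · rw [nsmul_eq_mul, Nat.card_Icc, Nat.add_sub_cancel]
      exact mul_le_mul_of_nonneg_right ((Nat.floor_le hM0.le).trans hML) (by positivity)
  have hhigh : ∑ S ∈ univ.filter (fun S : Finset (Edge n r) => M < (S.card : ℝ)),
      fhat p f S ^ 2 ≤ tinf p f / M := by
    rw [le_div_iff₀ hM0, sum_mul]
    refine (sum_le_sum fun S hS => ?_).trans
      (sum_le_sum_of_subset_of_nonneg (f := fun S => (S.card : ℝ) * fhat p f S ^ 2) (subset_univ _)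
        fun S _ _ => by positivity)
    rw [mul_comm]
    exact mul_le_mul_of_nonneg_right (mem_filter.1 hS).2.le (sq_nonneg _)
  set m := ev (nu p) f with hmdef
  have hsq : ev (nu p) (fun x => f x ^ 2) = m :=
    congrArg (ev (nu p)) (funext fun x => by rcases hf x with h | h <;> simp [h])
  have h0 : fhat p f ∅ = m := congrArg (ev (nu p)) (funext fun x => by simp [chi])
  have hpar := parseval hp f
  rw [hsq, ← add_sum_erase univ _ (mem_univ (∅ : Finset (Edge n r))), h0] at hpar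
  refine le_trans (le_of_eq (show m * (1 - m) = ∑ S ∈ univ.erase (∅ : Finset (Edge n r)),
    fhat p f S ^ 2 by linarith [sq m])) ?_
  refine le_trans ?_ (add_le_add hlow hhigh)
  rw [← sum_union (disjoint_filter.2 fun S _ h1 => not_lt.2 h1.2)]
  refine sum_le_sum_of_subset_of_nonneg (fun S hS => ?_) fun _ _ _ => sq_nonneg _
  have hne : S.card ≠ 0 := fun h => (mem_erase.1 hS).1 (card_eq_zero.1 h)
  rcases le_or_gt (S.card : ℝ) M with h | h
  · exact mem_union_left _ (mem_filter.2 ⟨mem_univ _, hne, h⟩)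
  · exact mem_union_right _ (mem_filter.2 ⟨mem_univ _, h⟩)

theorem key_bound {ε I M L m : ℝ} (hε : 0 < ε) (hI : 0 ≤ I) (hM0 : 0 < M) (hML : M ≤ L ^ 2)
    (hL : 2 ^ 24 ≤ L) (hεL : 100 ≤ ε * L) (hm1 : ε ≤ m) (hm2 : m ≤ 1 - ε)
    (hvar : m * (1 - m) ≤ L ^ 2 * (21 * (L ^ 20)⁻¹ * (1 + I)) + I / M) : ε / 4 * M ≤ 2 * I := by
  have hL1 : 1 ≤ L := le_trans (by norm_num) hL
  have hL0 : 0 < L := by linarith
  have hη' : L ^ 2 * (21 * (L ^ 20)⁻¹) = 21 / L ^ 18 := by field_simp
  have h18 : 21 / L ^ 18 ≤ ε / 4 := by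
    rw [div_le_div_iff₀ (by positivity) (by norm_num)]
    have h := mul_le_mul_of_nonneg_left (le_self_pow₀ hL1 (by norm_num : 18 ≠ 0)) hε.le
    linarith
  have hMη : 21 / L ^ 18 * M ≤ 1 := by
    rw [div_mul_eq_mul_div, div_le_one (by positivity)]
    have h3 : L ^ 3 ≤ L ^ 18 := pow_le_pow_right₀ hL1 (by norm_num)
    have h4 : 21 * L ^ 2 ≤ L * L ^ 2 := mul_le_mul_of_nonneg_right (by linarith) (sq_nonneg L)
    linarith
  have hm : ε / 2 ≤ m * (1 - m) := by nlinarith
  rw [← mul_assoc, hη'] at hvar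
  have h1 : (ε / 4 - 21 / L ^ 18 * I) * M ≤ I := by
    rw [← le_div_iff₀ hM0]; linarith
  have h2 := mul_le_mul_of_nonneg_right hMη hI
  linarith

/-- invariant functions have large influence -/
theorem lower (hr : 2 ≤ r) : Lower r := by
  intro ε hε
  obtain ⟨L₀, hL₀⟩ := small_upto
  set Lmin := max (max L₀ (2 ^ 24)) (max (96 * (r : ℝ)) (100 / ε)) with hLmin
  refine ⟨ε / 2 ^ 31, by positivity, max 2 ⌈exp Lmin⌉₊, fun n hn f hf hinv p hp hv hm1 hm2 => ?_⟩
  have hn2 : 2 ≤ n := le_of_max_le_left hn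
  have hnR : exp Lmin ≤ (n : ℝ) :=
    (Nat.le_ceil _).trans (by exact_mod_cast le_of_max_le_right hn)
  set L := log (n : ℝ) with hLdef
  have hLm : Lmin ≤ L := by
    rw [hLdef, le_log_iff_exp_le (by exact_mod_cast (by omega : 0 < n))]
    exact hnR
  have hL24 : 2 ^ 24 ≤ L := ((le_max_right _ _).trans (le_max_left _ _)).trans hLm
  have hLge : L₀ ≤ L := ((le_max_left _ _).trans (le_max_left _ _)).trans hLm
  have hLr : 96 * (r : ℝ) ≤ L := ((le_max_left _ _).trans (le_max_right _ _)).trans hLm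
  have hLε : 100 / ε ≤ L := ((le_max_right _ _).trans (le_max_right _ _)).trans hLm
  have hL0 : 0 < L := lt_of_lt_of_le (by norm_num) hL24
  have hL1 : 1 ≤ L := le_trans (by norm_num) hL24
  set v := p * (1 - p) with hvdef
  set β := (r : ℝ) / ((r : ℝ) - 1) with hβ
  set M := 1 / 2 ^ 28 * v * L ^ β with hM
  have hβ2 : β ≤ 2 := by
    have : (2 : ℝ) ≤ r := by exact_mod_cast hr
    rw [hβ, div_le_iff₀ (by linarith)]
    linarith
  have hv0 : 0 < v := hp.var_pos
  have hM0 : 0 < M := mul_pos (mul_pos (by norm_num) hv0) (rpow_pos_of_pos hL0 _)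
  have hML : M ≤ L ^ 2 := by
    have h1 : L ^ β ≤ L ^ 2 := by
      rw [← rpow_natCast L 2]
      exact rpow_le_rpow_of_exponent_le hL1 (by exact_mod_cast hβ2)
    have h2 : 1 / 2 ^ 28 * v ≤ 1 := by linarith [Inner.var_le p]
    calc M ≤ 1 * L ^ β := mul_le_mul_of_nonneg_right h2 (rpow_nonneg hL0.le _)
      _ ≤ L ^ 2 := by rw [one_mul]; exact h1
  set I := tinf p f with hIdef
  have hI0 : 0 ≤ I := tinf_nonneg p f
  set η := 21 * (L ^ 20)⁻¹ with hη
  have hη0 : 0 ≤ η := by positivity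
  set m := ev (nu p) f with hmdef
  have hvar : m * (1 - m) ≤ L ^ 2 * (η * (1 + I)) + I / M := by
    refine var_le hp hf hM0 hML (by positivity) fun s h1 hsM => ?_
    exact degree_le hr hn2 hLdef hL24 hLr hp h1 (hsM.trans hML) (degree_cond hr hL0 hp hsM)
      (fun t h1 h2 => hL₀ L hLge _ p hp hv t h1 h2) hf hinv
  have hkey := key_bound hε hI0 hM0 hML hL24 (by linarith [(div_le_iff₀ hε).1 hLε])
    hm1 hm2 hvar
  have : ε / 2 ^ 31 * v * L ^ β = ε / 8 * M := by rw [hM]; ring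
  rw [this]
  linarith

end Degrees

end Vale.Agent.P063
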