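import Vale.Agent.P063.Hyper

/-!
Tiny coefficients of low degree carry little weight.
-/

namespace Vale.Agent.P063

open Finset Real

variable {E : Type*} [Fintype E] [DecidableEq E] {p : ℝ}

/-- the constant of hypercontractivity -/
noncomputable def hK (p : ℝ) : ℝ := 4 / (p * (1 - p))

theorem Inner.var_le (p : ℝ) : p * (1 - p) ≤ 1 / 4 := by nlinarith [sq_nonneg (p - 1 / 2)]

theorem Inner.hK_ge (hp : Inner p) : 16 ≤ hK p := by
  rw [hK, le_div_iff₀ hp.var_pos]
  linarith [Inner.var_le p]

theorem Inner.hK_sq (hp : Inner p) : 3 * (1 / (p * (1 - p))) ≤ hK p ^ 2 := by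
  have h1 : 3 * (1 / (p * (1 - p))) ≤ hK p := by
    rw [hK, mul_one_div]
    exact div_le_div_of_nonneg_right (by norm_num) hp.var_pos.le
  nlinarith [hp.hK_ge]

/-- the sets of at most `m` elements with tiny coefficient carry weight at most `ε (1 + I)` -/
def Small (E : Type*) [Fintype E] [DecidableEq E] (p m Λ ε : ℝ) : Prop :=
  ∀ f : (E → Bool) → ℝ, IsBool f →
    (∑ S ∈ univ.filter (fun S : Finset E => (S.card : ℝ) ≤ m ∧ fhat p f S ^ 2 ≤ exp (-Λ)),
      fhat p f S ^ 2) ≤ ε * (1 + tinf p f)

theorem Small.mono {m m' Λ Λ' ε ε' : ℝ} (h : Small E p m Λ ε) (hm : m' ≤ m) (hΛ : Λ ≤ Λ')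
    (hε : ε ≤ ε') : Small E p m' Λ' ε' := by
  intro f hf
  refine le_trans ?_ ((h f hf).trans (mul_le_mul_of_nonneg_right hε
    (by linarith [tinf_nonneg p f])))
  refine sum_le_sum_of_subset_of_nonneg (fun S hS => ?_) fun _ _ _ => sq_nonneg _
  simp only [mem_filter, mem_univ, true_and] at hS ⊢
  exact ⟨hS.1.trans hm, hS.2.trans (exp_le_exp.2 (by linarith))⟩

theorem card_lows_le (s : Finset E) : ∀ m, ((lows s m).card : ℝ) ≤ ((s.card : ℝ) + 1) ^ m := by
  induction s using Finset.induction with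
  | empty => intro m; simp [lows, filter_singleton]
  | insert i s hi ih =>
    intro m
    cases m with
    | zero =>
      have : lows (insert i s) 0 = {∅} := by ext U; simp +contextual [lows]
      simp [this]
    | succ m =>
      have h := sum_lows_insert hi m (fun _ => (1 : ℝ))
      simp only [sum_const, nsmul_eq_mul, mul_one] at h
      rw [h, card_insert_of_notMem hi, Nat.cast_add_one]
      have hk : (0 : ℝ) ≤ s.card := Nat.cast_nonneg _
      calc _ ≤ ((s.card : ℝ) + 1) ^ (m + 1) + ((s.card : ℝ) + 1) ^ m := add_le_add (ih _) (ih _)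
        _ = ((s.card : ℝ) + 1) ^ m * ((s.card : ℝ) + 1 + 1) := by ring
        _ ≤ ((s.card : ℝ) + 1 + 1) ^ m * ((s.card : ℝ) + 1 + 1) := by
            gcongr <;> linarith
        _ = _ := by ring

theorem ev_coord {α : Type*} [Fintype α] {ν : α → ℝ} (hν : ∑ a, ν a = 1) (i : E) (ψ : α → ℝ) :
    ev ν (fun x : E → α => ψ (x i)) = ∑ a, ν a * ψ a := by
  have := ev_indep hν (i := i) (F := fun _ => (1 : ℝ)) (fun _ _ _ => rfl) ψ
  simp only [one_mul, ev_const hν] at this
  exact this

/-- one coordinate: the mass is the variance times the probability of being pivotal -/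
theorem res_single_sq (hp : Inner p) {f : (E → Bool) → ℝ} (hf : IsBool f) (i : E) (x : E → Bool) :
    res p f {i} {i} x ^ 2 = p * (1 - p) * if res p f {i} {i} x = 0 then 0 else 1 := by
  have he : res p f {i} {i} x
      = ∑ b, nu p b * (f (Function.update x i b) * chi1 p b) := by
    rw [res, ← ev_coord (sum_nu p) i fun b => f (Function.update x i b) * chi1 p b]
    refine congrArg (ev (nu p)) (funext fun y => ?_)
    congr 1
    · congr 1
      funext j
      by_cases hj : j = i
      · subst hj; simp [mer]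
      · simp [mer, hj]
    · simp [chi]
  split_ifs with h
  · simp [h]
  have hs : 0 < √(p * (1 - p)) := Real.sqrt_pos.2 hp.var_pos
  have e : res p f {i} {i} x
      = √(p * (1 - p)) * (f (Function.update x i true) - f (Function.update x i false)) := by
    rw [he]
    simp [nu, chi1]
    field_simp
    rw [Real.sq_sqrt hp.var_pos.le]
    ring
  rw [e] at h ⊢
  rw [mul_pow, Real.sq_sqrt hp.var_pos.le]
  congr 1
  rcases hf (Function.update x i true) with h1 | h1 <;>
    rcases hf (Function.update x i false) with h2 | h2 <;> simp [h1, h2] at h ⊢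

/-- the large part of a coefficient of a restriction -/
noncomputable def big (p Λ : ℝ) (f : (E → Bool) → ℝ) (J T : Finset E) (x : E → Bool) : ℝ :=
  if exp (-Λ) < res p f J T x ^ 2 then res p f J T x else 0

/-- the probability that the coefficient of a restriction is large -/
noncomputable def pbig (p Λ : ℝ) (f : (E → Bool) → ℝ) (J T : Finset E) : ℝ :=
  ev (nu p) fun x => if big p Λ f J T x = 0 then 0 else 1

theorem pbig_nonneg (hp : Inner p) (Λ : ℝ) (f : (E → Bool) → ℝ) (J T : Finset E) :
    0 ≤ pbig p Λ f J T :=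
  ev_nonneg hp.nonneg fun x => by split_ifs <;> norm_num

theorem big_sq_le (p Λ : ℝ) (f : (E → Bool) → ℝ) (J T : Finset E) (x : E → Bool) :
    big p Λ f J T x ^ 2 ≤ res p f J T x ^ 2 := by
  unfold big
  split_ifs <;> simp [sq_nonneg]

theorem sum_ev_big_le (hp : Inner p) {f : (E → Bool) → ℝ} (hf : IsBool f) (Λ : ℝ) (J : Finset E)
    (s : Finset (Finset E)) : ∑ T ∈ s, ev (nu p) (fun x => big p Λ f J T x ^ 2) ≤ 1 := by
  rw [← ev_sum]
  refine (ev_mono hp.nonneg fun x => ?_).trans (le_of_eq (ev_const (sum_nu p) 1))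
  exact (sum_le_sum fun T _ => big_sq_le p Λ f J T x).trans (sum_res_sq_le hp hf J x s)

theorem pbig_le (hp : Inner p) (Λ : ℝ) (f : (E → Bool) → ℝ) (J T : Finset E) :
    pbig p Λ f J T ≤ exp Λ * ev (nu p) fun x => big p Λ f J T x ^ 2 := by
  rw [pbig, ← ev_mul]
  refine ev_mono hp.nonneg fun x => ?_
  unfold big
  by_cases h : exp (-Λ) < res p f J T x ^ 2
  · simp only [if_pos h]
    have h' : 1 ≤ exp Λ * res p f J T x ^ 2 := by
      have := mul_le_mul_of_nonneg_left h.le (exp_pos Λ).le
      rwa [← exp_add, add_neg_cancel, exp_zero] at this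
    split_ifs <;> linarith
  · simp [h]

/-- the sets of large coefficients -/
noncomputable def heavy (p Λ τ : ℝ) (f : (E → Bool) → ℝ) (J : Finset E) : Finset (Finset E) :=
  univ.filter fun T => τ < pbig p Λ f J T

theorem card_heavy_le (hp : Inner p) {f : (E → Bool) → ℝ} (hf : IsBool f) {Λ τ : ℝ} (hτ : 0 < τ)
    (J : Finset E) : ((heavy p Λ τ f J).card : ℝ) ≤ exp Λ / τ := by
  rw [le_div_iff₀ hτ]
  calc ((heavy p Λ τ f J).card : ℝ) * τ = ∑ _T ∈ heavy p Λ τ f J, τ := by simp
    _ ≤ ∑ T ∈ heavy p Λ τ f J, exp Λ * ev (nu p) (fun x => big p Λ f J T x ^ 2) :=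
        sum_le_sum fun T hT => ((mem_filter.1 hT).2.le).trans (pbig_le hp Λ f J T)
    _ ≤ exp Λ * 1 := by
        rw [← mul_sum]
        exact mul_le_mul_of_nonneg_left (sum_ev_big_le hp hf Λ J _) (exp_pos _).le
    _ = exp Λ := mul_one _

/-- on average the small coefficients of restrictions carry little -/
theorem small_res (hp : Inner p) {m Λ ε : ℝ} (h : Small E p m Λ ε) (hε : 0 ≤ ε)
    {f : (E → Bool) → ℝ} (hf : IsBool f) (J : Finset E) :
    ∑ T ∈ univ.filter (fun T : Finset E => (T.card : ℝ) ≤ m),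
      ev (nu p) (fun x => (res p f J T x - big p Λ f J T x) ^ 2) ≤ ε * (1 + tinf p f) := by
  rw [← ev_sum]
  refine (ev_mono hp.nonneg (g := fun x => ε * (1 + tinf p fun y => f (mer J y x)))
    fun x => ?_).trans ?_
  · refine le_trans (le_of_eq ?_) (h _ (isBool_mer hf J x))
    rw [← filter_filter, sum_filter (s := univ.filter fun T : Finset E => (T.card : ℝ) ≤ m)]
    refine sum_congr rfl fun T _ => ?_
    change _ = if res p f J T x ^ 2 ≤ exp (-Λ) then res p f J T x ^ 2 else 0
    unfold big
    by_cases hb : exp (-Λ) < res p f J T x ^ 2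
    · rw [if_pos hb, sub_self]
      refine Eq.trans ?_ (if_neg (not_le.2 hb)).symm
      ring
    · rw [if_neg hb, sub_zero]
      exact (if_pos (not_lt.1 hb)).symm
  · rw [ev_mul, ev_add, ev_const (sum_nu p)]
    exact mul_le_mul_of_nonneg_left (by linarith [ev_tinf_le hp f J]) hε

/-- the sets whose part in `J` is not heavy carry little -/
theorem side_le (hp : Inner p) {s Λ ε : ℝ} (h : Small E p s Λ ε) (hε : 0 ≤ ε)
    {f : (E → Bool) → ℝ} (hf : IsBool f) (N : ℕ) {τ : ℝ} (hτ : 0 ≤ τ) (J : Finset E) :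
    ∑ S ∈ univ.filter (fun S : Finset E =>
        S.card ≤ N ∧ ((S ∩ J).card : ℝ) ≤ s ∧ S ∩ J ∉ heavy p Λ τ f J), fhat p f S ^ 2
      ≤ 2 * (ε * (1 + tinf p f)) + 2 * (hK p ^ N * √τ) := by
  set 𝒮 := univ.filter (fun S : Finset E =>
    S.card ≤ N ∧ ((S ∩ J).card : ℝ) ≤ s ∧ S ∩ J ∉ heavy p Λ τ f J) with h𝒮
  set 𝒯 := univ.filter (fun T : Finset E =>
    (T.card : ℝ) ≤ s ∧ T ∉ heavy p Λ τ f J) with h𝒯
  have hK0 : 0 ≤ hK p := by linarith [hp.hK_ge]
  have hmap : ∀ S ∈ 𝒮, S ∩ J ∈ 𝒯 := fun S hS => by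
    simp only [h𝒮, mem_filter, mem_univ, true_and] at hS
    exact mem_filter.2 ⟨mem_univ _, hS.2⟩
  rw [← sum_fiberwise_of_maps_to hmap]
  have hterm : ∀ T ∈ 𝒯, ∑ S ∈ 𝒮.filter (fun S => S ∩ J = T), fhat p f S ^ 2
      ≤ 2 * ev (nu p) (fun x => (res p f J T x - big p Λ f J T x) ^ 2)
        + 2 * (hK p ^ N * √τ * ev (nu p) fun x => big p Λ f J T x ^ 2) := by
    intro T hT
    simp only [h𝒯, mem_filter, mem_univ, true_and] at hT
    set hs := fun x => res p f J T x - big p Λ f J T x
    calc ∑ S ∈ 𝒮.filter (fun S => S ∩ J = T), fhat p f S ^ 2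
        ≤ ∑ S ∈ 𝒮.filter (fun S => S ∩ J = T),
          (2 * fhat p hs (S \ J) ^ 2 + 2 * fhat p (big p Λ f J T) (S \ J) ^ 2) := by
          refine sum_le_sum fun S hS => ?_
          simp only [mem_filter] at hS
          have he : fhat p f S = fhat p hs (S \ J) + fhat p (big p Λ f J T) (S \ J) := by
            have hTJ : T ⊆ J := hS.2 ▸ inter_subset_right
            have hSe : T ∪ S \ J = S := by rw [← hS.2, union_comm, sdiff_union_inter]
            conv_lhs => rw [← hSe, ← fhat_res p f hTJ sdiff_disjoint]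
            rw [fhat, fhat, fhat, ← ev_add]
            exact congrArg (ev (nu p)) (funext fun x => by simp only [hs]; ring)
          rw [he]
          nlinarith [sq_nonneg (fhat p hs (S \ J) - fhat p (big p Λ f J T) (S \ J))]
      _ = ∑ U ∈ (𝒮.filter (fun S => S ∩ J = T)).image (· \ J),
          (2 * fhat p hs U ^ 2 + 2 * fhat p (big p Λ f J T) U ^ 2) := by
          rw [sum_image fun S hS S' hS' e => ?_]
          simp only [coe_filter, Set.mem_ofPred_eq] at hS hS'
          replace e : S \ J = S' \ J := e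
          rw [← sdiff_union_inter S J, ← sdiff_union_inter S' J, e, hS.2, hS'.2]
      _ ≤ ∑ U ∈ lows univ N, (2 * fhat p hs U ^ 2 + 2 * fhat p (big p Λ f J T) U ^ 2) := by
          refine sum_le_sum_of_subset_of_nonneg (fun U hU => ?_) fun _ _ _ => by positivity
          obtain ⟨S, hS, rfl⟩ := mem_image.1 hU
          simp only [h𝒮, mem_filter, mem_univ, true_and] at hS
          exact mem_filter.2 ⟨mem_powerset.2 (subset_univ _),
            (card_le_card sdiff_subset).trans hS.1.1⟩
      _ ≤ _ := by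
          rw [sum_add_distrib, ← mul_sum, ← mul_sum]
          gcongr ?_ + 2 * ?_
          · refine mul_le_mul_of_nonneg_left ?_ zero_le_two
            exact (sum_le_sum_of_subset_of_nonneg (subset_univ _) fun _ _ _ => sq_nonneg _).trans
              (le_of_eq (parseval hp hs))
          · refine (corr_le hp.nonneg (sum_nu p) (mean_chi1 p) (sq_chi1 hp).le (four_chi1 hp)
              (by linarith [hp.hK_ge]) hp.hK_sq (big p Λ f J T) N).trans ?_
            refine mul_le_mul_of_nonneg_right (mul_le_mul_of_nonneg_left ?_ (pow_nonneg hK0 N))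
              (ev_nonneg hp.nonneg fun x => sq_nonneg _)
            exact Real.sqrt_le_sqrt (not_lt.1 fun h' => hT.2 (mem_filter.2 ⟨mem_univ _, h'⟩))
  refine (sum_le_sum hterm).trans ?_
  rw [sum_add_distrib, ← mul_sum, ← mul_sum, ← mul_sum]
  refine add_le_add (mul_le_mul_of_nonneg_left ?_ zero_le_two)
    (mul_le_mul_of_nonneg_left ?_ zero_le_two)
  · refine le_trans (sum_le_sum_of_subset_of_nonneg (fun T hT => ?_) fun T _ _ =>
      ev_nonneg hp.nonneg fun x => sq_nonneg _) (small_res hp h hε hf J)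
    simp only [h𝒯, mem_filter, mem_univ, true_and] at hT ⊢
    exact hT.1
  · calc hK p ^ N * √τ * ∑ T ∈ 𝒯, ev (nu p) (fun x => big p Λ f J T x ^ 2)
        ≤ hK p ^ N * √τ * 1 := mul_le_mul_of_nonneg_left (sum_ev_big_le hp hf Λ J _)
          (mul_nonneg (pow_nonneg hK0 N) (Real.sqrt_nonneg _))
      _ = _ := mul_one _

/-- the deviation of the size of a random half -/
theorem ev_half_sq (S : Finset E) :
    ev (nu (1 / 2)) (fun b : E → Bool => (((S ∩ setOfBits b).card : ℝ) - S.card / 2) ^ 2)
      = S.card / 4 := by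
  set ψ : Bool → ℝ := fun b => (if b then 1 else 0) - 1 / 2
  have hν := sum_nu (1 / 2 : ℝ)
  have he : ∀ b : E → Bool, (((S ∩ setOfBits b).card : ℝ) - S.card / 2) ^ 2
      = ∑ i ∈ S, ∑ j ∈ S, ψ (b i) * ψ (b j) := by
    intro b
    have : ∑ i ∈ S, ψ (b i) = ((S ∩ setOfBits b).card : ℝ) - S.card / 2 := by
      simp only [ψ, sum_sub_distrib, sum_boole, sum_const, nsmul_eq_mul]
      have : S.filter (fun i => b i = true) = S ∩ setOfBits b := by
        ext i; simp [mem_setOfBits]
      rw [this]
      ring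
    rw [← this, sq, sum_mul_sum]
  simp only [he, ev_sum]
  have hmean : ∑ a, nu (1 / 2) a * ψ a = 0 := by simp [ψ, nu]; norm_num
  have hsq : ∑ a, nu (1 / 2) a * ψ a ^ 2 = 1 / 4 := by simp [ψ, nu]; norm_num
  have hij : ∀ i j : E, ev (nu (1 / 2)) (fun b : E → Bool => ψ (b i) * ψ (b j))
      = if i = j then 1 / 4 else 0 := by
    intro i j
    by_cases hij : i = j
    · subst hij
      rw [if_pos rfl]
      simp only [← sq]
      rw [ev_coord hν i fun a => ψ a ^ 2, hsq]
    · rw [if_neg hij, ev_indep hν (i := j) (F := fun b : E → Bool => ψ (b i))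
        (fun x y h => by simp only [h i hij]) ψ, hmean, mul_zero]
  simp only [hij, sum_ite_eq]
  rw [sum_congr rfl fun i hi => if_pos hi]
  simp
  ring

/-- from half the degree to the whole -/
theorem small_step (hp : Inner p) {s m Λ ε D : ℝ} (h : Small E p s Λ ε) (hε : exp (-D) ≤ ε)
    (hm : 0 ≤ m) (hs : m / 2 ≤ s) (hgap : m / 2 ≤ (s - m / 2) ^ 2) :
    Small E p m (2 * Λ + 4 * (m * log (hK p)) + 5 * D) (18 * ε) := by
  intro f hf
  set a := log (hK p) with ha
  have hK16 := hp.hK_ge
  set δ := exp (-D) with hδ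
  set τ := exp (-2 * (m * a + D)) with hτ
  have hτ0 : 0 < τ := exp_pos _
  set θ := exp (-(2 * Λ + 4 * (m * a) + 5 * D)) with hθ
  set N := ⌊m⌋₊ with hN
  have hKN : hK p ^ N * √τ ≤ δ := by
    have : √τ = exp (-(m * a + D)) := by
      rw [hτ, show exp (-2 * (m * a + D)) = exp (-(m * a + D)) * exp (-(m * a + D)) by
        rw [← exp_add]; ring_nf, Real.sqrt_mul_self (exp_pos _).le]
    rw [this, ← exp_log (show 0 < hK p by linarith), ← exp_nat_mul, ← exp_add, hδ, exp_le_exp, ← ha]
    have : (N : ℝ) * a ≤ m * a :=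
      mul_le_mul_of_nonneg_right (Nat.floor_le hm) (log_nonneg (by linarith))
    linarith
  have hε0 : 0 ≤ ε := (exp_pos _).le.trans hε
  have hI : 1 ≤ 1 + tinf p f := by linarith [tinf_nonneg p f]
  set 𝒮 := univ.filter (fun S : Finset E => (S.card : ℝ) ≤ m ∧ fhat p f S ^ 2 ≤ θ) with h𝒮
  set good : Finset E → Finset E → Prop := fun S J =>
    ((S ∩ J).card : ℝ) ≤ s ∧ ((S ∩ Jᶜ).card : ℝ) ≤ s with hgood
  classical
  have hJ : ∀ J : Finset E, ∑ S ∈ 𝒮, (if good S J then fhat p f S ^ 2 else 0)
      ≤ 9 * ε * (1 + tinf p f) := by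
    intro J
    set A := heavy p Λ τ f J with hA
    set B := heavy p Λ τ f Jᶜ with hB
    have h1 := side_le hp h hε0 hf N hτ0.le J
    have h2 := side_le hp h hε0 hf N hτ0.le Jᶜ
    set X := univ.filter (fun S : Finset E =>
        S.card ≤ N ∧ ((S ∩ J).card : ℝ) ≤ s ∧ S ∩ J ∉ A) with hX
    set Y := univ.filter (fun S : Finset E =>
        S.card ≤ N ∧ ((S ∩ Jᶜ).card : ℝ) ≤ s ∧ S ∩ Jᶜ ∉ B) with hY
    set Z := 𝒮.filter (fun S => S ∩ J ∈ A ∧ S ∩ Jᶜ ∈ B) with hZ
    have hcover : ∀ S ∈ 𝒮, (if good S J then fhat p f S ^ 2 else 0)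
        ≤ (if S ∈ X then fhat p f S ^ 2 else 0) + (if S ∈ Y then fhat p f S ^ 2 else 0)
          + (if S ∈ Z then fhat p f S ^ 2 else 0) := by
      intro S hS
      have h0 := sq_nonneg (fhat p f S)
      by_cases hg : good S J
      · rw [if_pos hg]
        have hSN : S.card ≤ N := Nat.le_floor (mem_filter.1 hS).2.1
        by_cases hXS : S ∩ J ∈ A
        · by_cases hYS : S ∩ Jᶜ ∈ B
          · rw [if_pos (mem_filter.2 ⟨hS, hXS, hYS⟩)]
            split_ifs <;> linarith
          · rw [if_pos (show S ∈ Y from mem_filter.2 ⟨mem_univ _, hSN, hg.2, hYS⟩)]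
            split_ifs <;> linarith
        · rw [if_pos (show S ∈ X from mem_filter.2 ⟨mem_univ _, hSN, hg.1, hXS⟩)]
          split_ifs <;> linarith
      · rw [if_neg hg]; split_ifs <;> linarith
    have hsub : ∀ W : Finset (Finset E), ∑ S ∈ 𝒮, (if S ∈ W then fhat p f S ^ 2 else 0)
        ≤ ∑ S ∈ W, fhat p f S ^ 2 := fun W => by
      rw [← sum_filter]
      exact sum_le_sum_of_subset_of_nonneg (fun S hS => (mem_filter.1 hS).2) fun _ _ _ =>
        sq_nonneg _
    refine (sum_le_sum hcover).trans ?_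
    rw [sum_add_distrib, sum_add_distrib]
    refine (add_le_add (add_le_add ((hsub X).trans h1) ((hsub Y).trans h2)) (hsub Z)).trans ?_
    have hZc : (Z.card : ℝ) ≤ exp Λ / τ * (exp Λ / τ) := by
      have : Z.card ≤ (A ×ˢ B).card := by
        refine card_le_card_of_injOn (fun S => (S ∩ J, S ∩ Jᶜ)) (fun S hS => ?_) fun S _ S' _ e => ?_
        · simp only [hZ, coe_filter, Set.mem_ofPred_eq] at hS
          exact mem_coe.2 (mem_product.2 hS.2)
        · simp only [Prod.mk.injEq] at e
          ext i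
          have e1 := congrArg (fun W => i ∈ W) e.1
          have e2 := congrArg (fun W => i ∈ W) e.2
          simp only [mem_inter, mem_compl, eq_iff_iff] at e1 e2
          tauto
      refine (Nat.cast_le.2 this).trans ?_
      rw [card_product, Nat.cast_mul]
      exact mul_le_mul (card_heavy_le hp hf hτ0 J) (card_heavy_le hp hf hτ0 Jᶜ) (Nat.cast_nonneg _)
        (by positivity)
    have hZs : ∑ S ∈ Z, fhat p f S ^ 2 ≤ δ := by
      refine (sum_le_card_nsmul Z _ θ fun S hS => (mem_filter.1 (mem_filter.1 hS).1).2.2).trans ?_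
      rw [nsmul_eq_mul]
      refine (mul_le_mul_of_nonneg_right hZc (exp_pos _).le).trans (le_of_eq ?_)
      rw [hτ, hδ, ← exp_sub, ← exp_add, ← exp_add]
      congr 1
      ring
    have : ε ≤ ε * (1 + tinf p f) := le_mul_of_one_le_right hε0 hI
    linarith
  set ν := nu (1 / 2 : ℝ) with hν
  have hν0 : ∀ b, 0 ≤ ν b := nu_nonneg (by norm_num) (by norm_num)
  have hhalf : ∀ S ∈ 𝒮, fhat p f S ^ 2
      ≤ 2 * ev ν fun b : E → Bool => if good S (setOfBits b) then fhat p f S ^ 2 else 0 := by
    intro S hS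
    have hSm := (mem_filter.1 hS).2.1
    rcases eq_or_lt_of_le hs with hseq | hslt
    · have hm0 : m = 0 := by rw [← hseq] at hgap; linarith [show (m / 2 - m / 2) ^ 2 = 0 by ring]
      have hS0 : S = ∅ := by
        rw [hm0] at hSm
        exact card_eq_zero.1 (Nat.le_zero.1 (by exact_mod_cast hSm))
      have : ∀ b : E → Bool, good S (setOfBits b) := fun b => by
        subst hS0; simp only [hgood, empty_inter, card_empty, Nat.cast_zero]; constructor <;> linarith
      simp only [this, if_true, hν, ev_const (sum_nu (1 / 2 : ℝ))]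
      linarith [sq_nonneg (fhat p f S)]
    · have hg : 0 < s - m / 2 := by linarith
      have key : ∀ b : E → Bool, fhat p f S ^ 2
          - fhat p f S ^ 2 / (s - m / 2) ^ 2
            * (((S ∩ setOfBits b).card : ℝ) - S.card / 2) ^ 2
          ≤ if good S (setOfBits b) then fhat p f S ^ 2 else 0 := by
        intro b
        split_ifs with hgd
        · have : 0 ≤ fhat p f S ^ 2 / (s - m / 2) ^ 2
            * (((S ∩ setOfBits b).card : ℝ) - S.card / 2) ^ 2 := by positivity
          linarith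
        · have hc : ((S ∩ (setOfBits b)ᶜ).card : ℝ) = S.card - (S ∩ setOfBits b).card := by
            rw [← sdiff_eq_inter_compl, eq_sub_iff_add_eq, ← Nat.cast_add,
              card_sdiff_add_card_inter]
          have hd : (s - m / 2) ^ 2 ≤ (((S ∩ setOfBits b).card : ℝ) - S.card / 2) ^ 2 := by
            simp only [hgood, hc, not_and_or, not_le] at hgd
            rcases hgd with h' | h' <;> nlinarith
          have := mul_le_mul_of_nonneg_left hd
            (div_nonneg (sq_nonneg (fhat p f S)) (sq_nonneg (s - m / 2)))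
          rw [div_mul_cancel₀ _ (by positivity)] at this
          linarith
      have he := ev_mono hν0 key
      simp only [sub_eq_add_neg (fhat p f S ^ 2), ← neg_mul] at he
      rw [hν] at he ⊢
      rw [ev_add, ev_const (sum_nu (1 / 2 : ℝ)), ev_mul, ev_half_sq] at he
      have hquot : fhat p f S ^ 2 / (s - m / 2) ^ 2 * ((S.card : ℝ) / 4)
          ≤ fhat p f S ^ 2 / 2 := by
        rw [div_mul_eq_mul_div, div_le_div_iff₀ (by positivity) (by norm_num)]
        have := mul_le_mul_of_nonneg_left (hSm.trans (by linarith : m ≤ 2 * (s - m / 2) ^ 2))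
          (sq_nonneg (fhat p f S))
        nlinarith
      simp only [← sub_eq_add_neg, neg_mul] at he
      linarith
  refine (sum_le_sum hhalf).trans ?_
  rw [← mul_sum, ← ev_sum]
  refine (mul_le_mul_of_nonneg_left ((ev_mono hν0 fun b => hJ _).trans
    (le_of_eq (ev_const (sum_nu _) _))) zero_le_two).trans (le_of_eq ?_)
  ring

/-- bounded degree: a junta -/
theorem small_base (hp : Inner p) (m : ℕ) {D : ℝ} (hD : 0 ≤ D) :
    Small E p m (m * (3 * D + (2 * m + 1) * log (hK p) + 1) + D) (exp (-D)) := by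
  intro f hf
  set a := log (hK p) with ha
  set I := tinf p f with hIdef
  have hI : 0 ≤ I := tinf_nonneg p f
  have hK16 := hp.hK_ge
  have ha0 : 0 ≤ a := log_nonneg (by linarith)
  set θ := exp (-((m : ℝ) * (3 * D + (2 * m + 1) * a + 1) + D)) with hθ
  set δ := exp (-D) with hδ
  rcases le_or_gt (exp D) (1 + I) with hbig | hsmall
  · refine le_trans ?_ ((le_of_eq (by rw [← exp_add, neg_add_cancel, exp_zero])).trans
      (mul_le_mul_of_nonneg_left hbig (exp_pos (-D)).le))
    exact (sum_le_sum_of_subset_of_nonneg (subset_univ _) fun _ _ _ => sq_nonneg _).trans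
      (sum_fhat_sq_le hp hf)
  set τ := exp (-2 * ((m : ℝ) * a + D)) with hτ
  have hτ0 : 0 < τ := exp_pos _
  set P := fun i : E => ev (nu p) fun x => if res p f {i} {i} x = 0 then (0 : ℝ) else 1 with hP
  set q := fun i : E => ev (nu p) fun x => res p f {i} {i} x ^ 2 with hq
  have hqP : ∀ i, q i = p * (1 - p) * P i := fun i => by
    simp only [hq, hP, ← ev_mul]
    exact congrArg (ev (nu p)) (funext fun x => res_single_sq hp hf i x)
  have hqsum : ∀ i, q i = ∑ S : Finset E, if i ∈ S then fhat p f S ^ 2 else 0 := by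
    intro i
    simp only [hq]
    rw [ev_res_sq hp f subset_rfl, sum_filter]
    refine sum_congr rfl fun S _ => ?_
    by_cases hi : i ∈ S <;> simp [hi]
  have hqI : ∑ i, q i = I := by
    simp only [hqsum]
    rw [sum_comm, hIdef, tinf]
    refine sum_congr rfl fun S _ => ?_
    rw [← sum_filter, filter_mem_eq_inter, univ_inter, sum_const, nsmul_eq_mul]
  set J₀ := univ.filter fun i : E => τ < P i with hJ₀
  have hJc : ((J₀.card : ℝ)) ≤ exp (3 * D + (2 * m + 1) * a) := by
    have h1 : (J₀.card : ℝ) * (p * (1 - p) * τ) ≤ I := by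
      rw [← hqI, ← nsmul_eq_mul, ← sum_const]
      refine (sum_le_sum fun i hi => ?_).trans (sum_le_sum_of_subset_of_nonneg (f := q) (subset_univ J₀)
        fun i _ _ => ev_nonneg hp.nonneg fun x => sq_nonneg _)
      rw [hqP i]
      exact mul_le_mul_of_nonneg_left (mem_filter.1 hi).2.le hp.var_pos.le
    have h2 : (J₀.card : ℝ) * τ ≤ exp D * hK p := by
      have h3 : (J₀.card : ℝ) * τ ≤ I / (p * (1 - p)) := by
        rw [le_div_iff₀ hp.var_pos]; linarith
      refine h3.trans ?_
      rw [hK, ← mul_div_assoc]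
      exact div_le_div_of_nonneg_right (by linarith [exp_pos D]) hp.var_pos.le
    rw [← le_div_iff₀ hτ0] at h2
    refine h2.trans (le_of_eq ?_)
    rw [← exp_log (show 0 < hK p by linarith), ← exp_add, hτ, ← exp_sub, ← ha]
    congr 1
    ring
  have hin : ∑ S ∈ lows J₀ m, min (fhat p f S ^ 2) θ ≤ δ := by
    refine (sum_le_card_nsmul _ _ θ fun S _ => min_le_right _ _).trans ?_
    rw [nsmul_eq_mul]
    have h1 : (J₀.card : ℝ) + 1 ≤ exp (3 * D + (2 * m + 1) * a + 1) := by
      rw [exp_add _ 1]
      have h2 := add_one_le_exp (1 : ℝ)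
      have h3 := one_le_exp (show 0 ≤ 3 * D + (2 * m + 1) * a by positivity)
      nlinarith
    have h4 : ((lows J₀ m).card : ℝ) ≤ exp ((m : ℝ) * (3 * D + (2 * m + 1) * a + 1)) := by
      rw [exp_nat_mul]
      exact (card_lows_le J₀ m).trans (pow_le_pow_left₀ (by positivity) h1 m)
    refine (mul_le_mul_of_nonneg_right h4 (exp_pos _).le).trans (le_of_eq ?_)
    rw [hδ, ← exp_add]
    congr 1
    ring
  have hout : ∀ i ∈ J₀ᶜ, ∑ S ∈ univ.filter (fun S : Finset E => i ∈ S ∧ S.card ≤ m),
      fhat p f S ^ 2 ≤ δ * q i := by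
    intro i hi
    have hPi : P i ≤ τ := not_lt.1 fun h' => mem_compl.1 hi (mem_filter.2 ⟨mem_univ _, h'⟩)
    calc ∑ S ∈ univ.filter (fun S : Finset E => i ∈ S ∧ S.card ≤ m), fhat p f S ^ 2
        = ∑ U ∈ (univ.filter (fun S : Finset E => i ∈ S ∧ S.card ≤ m)).image (·.erase i),
          fhat p (res p f {i} {i}) U ^ 2 := by
          rw [sum_image fun S hS S' hS' e => ?_]
          · refine sum_congr rfl fun S hS => ?_
            simp only [mem_filter, mem_univ, true_and] at hS
            rw [fhat_res p f subset_rfl (disjoint_singleton_right.2 (notMem_erase _ _)),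
              ← insert_eq, insert_erase hS.1]
          · simp only [coe_filter, mem_univ, true_and, Set.mem_ofPred_eq] at hS hS'
            replace e : S.erase i = S'.erase i := e
            rw [← insert_erase hS.1, e, insert_erase hS'.1]
      _ ≤ ∑ U ∈ lows univ m, fhat p (res p f {i} {i}) U ^ 2 := by
          refine sum_le_sum_of_subset_of_nonneg (fun U hU => ?_) fun _ _ _ => sq_nonneg _
          obtain ⟨S, hS, rfl⟩ := mem_image.1 hU
          exact mem_filter.2 ⟨mem_powerset.2 (subset_univ _),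
            (card_le_card (erase_subset _ _)).trans (mem_filter.1 hS).2.2⟩
      _ ≤ hK p ^ m * √(P i) * q i :=
          corr_le hp.nonneg (sum_nu p) (mean_chi1 p) (sq_chi1 hp).le (four_chi1 hp)
            (by linarith) hp.hK_sq (res p f {i} {i}) m
      _ ≤ δ * q i := by
          refine mul_le_mul_of_nonneg_right ?_ (ev_nonneg hp.nonneg fun x => sq_nonneg _)
          have hsq : √τ = exp (-((m : ℝ) * a + D)) := by
            rw [hτ, show exp (-2 * ((m : ℝ) * a + D))
              = exp (-((m : ℝ) * a + D)) * exp (-((m : ℝ) * a + D)) by rw [← exp_add]; ring_nf,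
              Real.sqrt_mul_self (exp_pos _).le]
          refine (mul_le_mul_of_nonneg_left (Real.sqrt_le_sqrt hPi) (by positivity)).trans
            (le_of_eq ?_)
          rw [hsq, ← exp_log (show 0 < hK p by linarith), ← exp_nat_mul, ← exp_add, hδ, ← ha]
          congr 1
          ring
  calc ∑ S ∈ univ.filter (fun S : Finset E => (S.card : ℝ) ≤ m ∧ fhat p f S ^ 2 ≤ θ),
        fhat p f S ^ 2
      ≤ ∑ S : Finset E, ((if S ∈ lows J₀ m then min (fhat p f S ^ 2) θ else 0)
          + ∑ i ∈ J₀ᶜ, if i ∈ S ∧ S.card ≤ m then fhat p f S ^ 2 else 0) := by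
        rw [sum_filter]
        refine sum_le_sum fun S _ => ?_
        have hnn : 0 ≤ ∑ i ∈ J₀ᶜ, if i ∈ S ∧ S.card ≤ m then fhat p f S ^ 2 else 0 :=
          sum_nonneg fun i _ => by split_ifs <;> positivity
        by_cases hS : (S.card : ℝ) ≤ m ∧ fhat p f S ^ 2 ≤ θ
        · rw [if_pos hS]
          have hSm : S.card ≤ m := by exact_mod_cast hS.1
          by_cases hsub : S ⊆ J₀
          · rw [if_pos (show S ∈ lows J₀ m from mem_filter.2 ⟨mem_powerset.2 hsub, hSm⟩),
              min_eq_left hS.2]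
            linarith
          · obtain ⟨i, hi, hi'⟩ := not_subset.1 hsub
            rw [if_neg (show S ∉ lows J₀ m from fun h' => hsub (mem_powerset.1 (mem_filter.1 h').1)),
              zero_add]
            refine le_trans (le_of_eq ?_) (single_le_sum (f := fun i =>
              if i ∈ S ∧ S.card ≤ m then fhat p f S ^ 2 else 0)
              (fun i _ => by split_ifs <;> positivity) (mem_compl.2 hi'))
            rw [if_pos ⟨hi, hSm⟩]
        · rw [if_neg hS]
          refine add_nonneg ?_ hnn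
          split_ifs
          · exact le_min (sq_nonneg _) (exp_pos _).le
          · rfl
    _ ≤ δ + ∑ i ∈ J₀ᶜ, δ * q i := by
        rw [sum_add_distrib, ← sum_filter, filter_mem_eq_inter, univ_inter, sum_comm]
        refine add_le_add hin (sum_le_sum fun i hi => ?_)
        rw [← sum_filter]
        exact hout i hi
    _ ≤ δ * (1 + I) := by
        rw [← mul_sum, mul_add, mul_one]
        refine add_le_add le_rfl (mul_le_mul_of_nonneg_left ?_ (exp_pos _).le)
        rw [← hqI]
        exact sum_le_sum_of_subset_of_nonneg (subset_univ _) fun i _ _ =>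
          ev_nonneg hp.nonneg fun x => sq_nonneg _

/-- the sizes reached by the doubling -/
noncomputable def lvl (j : ℕ) : ℝ := 2000 * (31 / 16 : ℝ) ^ j

/-- tiny coefficients of degree up to `lvl j` carry little -/
theorem small_lvl (hp : Inner p) {D : ℝ} (hD : 1 ≤ D) (j : ℕ) :
    Small E p (lvl j) (2 ^ j * ((j : ℝ) + 1) * (10 ^ 8 * (log (hK p) + D)))
      (18 ^ j * exp (-D)) := by
  set a := log (hK p) with ha
  have ha0 : 0 ≤ a := log_nonneg (by linarith [hp.hK_ge])
  set c := 10 ^ 8 * (a + D) with hc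
  have main : ∀ j : ℕ, Small E p (lvl j) (2 ^ j * (c + c * (j : ℝ)) - 5 * D)
      (18 ^ j * exp (-D)) := by
    intro j
    induction j with
    | zero =>
      refine (small_base hp 2000 (by linarith : (0 : ℝ) ≤ D)).mono ?_ ?_ (by simp)
      · simp [lvl]
      · simp only [pow_zero, Nat.cast_zero, one_mul, mul_zero, add_zero, hc]
        push_cast
        linarith
    | succ j ih =>
      have hl : lvl (j + 1) = 31 / 16 * lvl j := by simp [lvl, pow_succ]; ring
      have h2000 : 2000 ≤ lvl j := le_mul_of_one_le_right (by norm_num)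
        (one_le_pow₀ (by norm_num))
      have hstep := small_step hp ih (D := D)
        (le_mul_of_one_le_left (exp_pos _).le (one_le_pow₀ (by norm_num)))
        (m := lvl (j + 1)) (by rw [hl]; linarith) (by rw [hl]; linarith)
        (by rw [hl]; nlinarith)
      refine hstep.mono le_rfl ?_ (le_of_eq (by ring))
      have hlu : lvl (j + 1) ≤ 2000 * 2 ^ (j + 1) :=
        mul_le_mul_of_nonneg_left (pow_le_pow_left₀ (by norm_num) (by norm_num) _) (by norm_num)
      have h4 := mul_le_mul_of_nonneg_right hlu ha0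
      have hp2 : (0 : ℝ) ≤ 2 ^ (j + 1) := by positivity
      have h5 : 8000 * (2 ^ (j + 1) * a) ≤ 2 ^ (j + 1) * c := by
        rw [hc]
        have := mul_le_mul_of_nonneg_left (show 8000 * a ≤ 10 ^ 8 * (a + D) by linarith) hp2
        linarith
      push_cast
      rw [pow_succ] at h5 h4 hlu ⊢
      nlinarith
  exact (main j).mono le_rfl (by
    have : 0 ≤ 5 * D := by linarith
    have e : (2 : ℝ) ^ j * (c + c * j) = 2 ^ j * ((j : ℝ) + 1) * c := by ring
    rw [hc] at e
    linarith) le_rfl

end Vale.Agent.P063
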