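import Vale.Agent.P063.Defs
import Vale.Agent.P063.Basic

/-!
The interfaces of the proof.
-/

namespace Vale.Agent.P063

open Finset

variable {n r : ℕ}

/-- the vertices covered by a set of edges -/
def verts (T : Finset (Edge n r)) : Finset (Fin n) := T.biUnion fun e => e.1

/-- invariance of a function of hypergraphs under the permutations of the vertices -/
def Invariant (f : (Edge n r → Bool) → ℝ) : Prop :=
  ∀ π : Equiv.Perm (Fin n), ∀ x, f (fun e => x (edgePerm π e)) = f x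

/-- the influence bound behind the width bound -/
def Lower (r : ℕ) : Prop :=
  ∀ ε : ℝ, 0 < ε → ∃ c : ℝ, 0 < c ∧ ∃ n₀ : ℕ, ∀ n, n₀ ≤ n → ∀ f : (Edge n r → Bool) → ℝ,
    IsBool f → Invariant f → ∀ p, Inner p → ((Real.log n) ^ 4)⁻¹ ≤ p * (1 - p) →
      ε ≤ ev (nu p) f → ev (nu p) f ≤ 1 - ε →
      c * (p * (1 - p)) * Real.log n ^ ((r : ℝ) / ((r : ℝ) - 1)) ≤ tinf p f

/-- the width bound for `r`-uniform properties -/
def WidthBound (r : ℕ) : Prop :=
  ∀ ε : ℝ, 0 < ε → ε < 1 / 2 → ∃ C : ℝ, ∀ n : ℕ, r ≤ n → ∀ P : Set (Finset (Edge n r)),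
    IsSymm P → IsIncreasing P → P.Nonempty → P ≠ Set.univ →
      width ε P ≤ C / Real.log n ^ ((r : ℝ) / ((r : ℝ) - 1))

end Vale.Agent.P063
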