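import Vale.Agent.P063.Stmt

/-!
From the influence bound to the width bound.
-/

namespace Vale.Agent.P063

open Finset

section General

variable {E : Type*} [Fintype E] [DecidableEq E]

/-- coordinatewise monotonicity -/
def MonoBits (f : (E → Bool) → ℝ) : Prop :=
  ∀ (i : E) (x : E → Bool), f (Function.update x i false) ≤ f (Function.update x i true)

/-- the jump of `f` across the coordinate `i` -/
def jump (f : (E → Bool) → ℝ) (i : E) (x : E → Bool) : ℝ :=
  f (Function.update x i true) - f (Function.update x i false)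

theorem res_single {p : ℝ} (hp : Inner p) (f : (E → Bool) → ℝ) (i : E) (x : E → Bool) :
    res p f {i} {i} x = √(p * (1 - p)) * jump f i x := by
  have hm : ∀ y : E → Bool, f (mer {i} y x) * chi p {i} y
      = f (Function.update x i (y i)) * chi1 p (y i) := by
    intro y
    congr 1
    · congr 1
      funext j
      by_cases h : j = i
      · subst h; simp [mer]
      · simp [mer, h]
    · simp [chi]
  simp only [res, hm]
  have h2 : ∀ y : E → Bool, f (Function.update x i (y i)) * chi1 p (y i)
      = ∏ j, (if j = i then f (Function.update x i (y j)) * chi1 p (y j) else 1) := by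
    intro y
    rw [prod_ite_eq' univ i (fun j => f (Function.update x i (y j)) * chi1 p (y j)),
      if_pos (mem_univ i)]
  simp only [h2]
  rw [ev_prod_fn (fun j b => if j = i then f (Function.update x i b) * chi1 p b else 1),
    prod_eq_single i (fun j _ hj => by simp [hj, nu]) (fun h => absurd (mem_univ i) h)]
  have hs : 0 < √(p * (1 - p)) := Real.sqrt_pos.2 hp.var_pos
  simp only [if_true, Fintype.sum_bool, nu, chi1, jump]
  field_simp
  rw [Real.sq_sqrt hp.var_pos.le]
  simp
  ring

theorem fhat_single {p : ℝ} (hp : Inner p) (f : (E → Bool) → ℝ) (i : E) :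
    fhat p f {i} = √(p * (1 - p)) * ev (nu p) (jump f i) := by
  rw [← ev_mul]
  simp only [← res_single hp f i]
  have h := fhat_res p f (J := {i}) (T := {i}) (U := ∅) (subset_refl _) (disjoint_empty_left _)
  rw [union_empty] at h
  rw [← h]
  simp [fhat, chi]

omit [Fintype E] in
theorem jump_cases {f : (E → Bool) → ℝ} (hf : IsBool f) (hm : MonoBits f) (i : E)
    (x : E → Bool) : jump f i x = 0 ∨ jump f i x = 1 := by
  have := hm i x
  rcases hf (Function.update x i true) with h | h <;>
    rcases hf (Function.update x i false) with h' | h' <;>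
    simp [jump, h, h'] at this ⊢
  linarith

theorem fhat_single_nonneg {p : ℝ} (hp : Inner p) {f : (E → Bool) → ℝ} (hm : MonoBits f) (i : E) :
    0 ≤ fhat p f {i} := by
  rw [fhat_single hp]
  exact mul_nonneg (Real.sqrt_nonneg _)
    (ev_nonneg hp.nonneg fun x => sub_nonneg.2 (hm i x))

/-- the influences of a monotone event are its first level coefficients -/
theorem tinf_eq_first {p : ℝ} (hp : Inner p) {f : (E → Bool) → ℝ} (hf : IsBool f)
    (hm : MonoBits f) : tinf p f = √(p * (1 - p)) * ∑ i, fhat p f {i} := by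
  have h1 : ∀ i, ∑ S ∈ univ.filter (fun S : Finset E => i ∈ S), fhat p f S ^ 2
      = √(p * (1 - p)) * fhat p f {i} := by
    intro i
    have hi : univ.filter (fun S : Finset E => i ∈ S)
        = univ.filter (fun S : Finset E => S ∩ {i} = {i}) := by
      ext S; simp
    rw [hi, ← ev_res_sq hp f (subset_refl _), fhat_single hp, ← mul_assoc, ← ev_mul]
    refine congrArg (ev (nu p)) (funext fun x => ?_)
    rw [res_single hp, mul_pow, sq (√_)]
    rcases jump_cases hf hm i x with h | h <;> simp [h]
  rw [mul_sum]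
  simp only [← h1, sum_filter]
  rw [sum_comm]
  refine sum_congr rfl fun S _ => ?_
  simp

theorem hasDerivAt_ev (f : (E → Bool) → ℝ) (p : ℝ) :
    HasDerivAt (fun q => ev (nu q) f)
      (∑ i, ∑ x, ((if x i then (1 : ℝ) else -1) * ∏ j ∈ univ.erase i, nu p (x j)) * f x) p := by
  have hb : ∀ b : Bool, HasDerivAt (fun q => nu q b) (if b then (1 : ℝ) else -1) p := by
    intro b
    cases b
    · simpa [nu] using (hasDerivAt_id p).const_sub (1 : ℝ)
    · simpa [nu, id] using hasDerivAt_id' p
  have hx : ∀ x : E → Bool, HasDerivAt (fun q => prw (nu q) x * f x)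
      ((∑ i, (if x i then (1 : ℝ) else -1) * ∏ j ∈ univ.erase i, nu p (x j)) * f x) p := by
    intro x
    refine HasDerivAt.mul_const ?_ _
    refine (HasDerivAt.fun_finsetProd fun i _ => hb (x i)).congr_deriv ?_
    exact sum_congr rfl fun i _ => by simp [mul_comm]
  refine (HasDerivAt.fun_sum fun x _ => hx x).congr_deriv ?_
  rw [sum_comm]
  simp only [sum_mul]

theorem deriv_ev {p : ℝ} (hp : Inner p) (f : (E → Bool) → ℝ) :
    deriv (fun q => ev (nu q) f) p = (∑ i, fhat p f {i}) / √(p * (1 - p)) := by
  have hs := hp.var_pos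
  have hq : (0 : ℝ) < 1 - p := by linarith [hp.2]
  have h0 := hp.1
  rw [(hasDerivAt_ev f p).deriv, sum_div]
  refine sum_congr rfl fun i _ => ?_
  rw [fhat, ev, sum_div]
  refine sum_congr rfl fun x _ => ?_
  rw [prw, ← mul_prod_erase univ _ (mem_univ i), chi, prod_singleton]
  simp only [chi1, nu]
  have hsq : √(p * (1 - p)) * √(p * (1 - p)) = p * (1 - p) := Real.mul_self_sqrt hs.le
  cases x i <;> simp <;> field_simp <;> rw [Real.sq_sqrt hs.le] <;> ring

/-- Russo's formula in spectral form -/
theorem tinf_eq_deriv {p : ℝ} (hp : Inner p) {f : (E → Bool) → ℝ} (hf : IsBool f)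
    (hm : MonoBits f) : tinf p f = p * (1 - p) * deriv (fun q => ev (nu q) f) p := by
  have hs := hp.var_pos
  have hne : √(p * (1 - p)) ≠ 0 := (Real.sqrt_pos.2 hs).ne'
  rw [tinf_eq_first hp hf hm, deriv_ev hp]
  field_simp
  rw [Real.sq_sqrt hs.le]

end General

variable {n r : ℕ}

open Classical in
/-- the indicator of a property on bit vectors -/
noncomputable def ind (P : Set (Finset (Edge n r))) (x : Edge n r → Bool) : ℝ :=
  if setOfBits x ∈ P then 1 else 0

open Classical in
theorem ind_isBool (P : Set (Finset (Edge n r))) : IsBool (ind P) := fun x => by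
  unfold ind
  split_ifs <;> simp

open Classical in
theorem mu_eq_ev (p : ℝ) (P : Set (Finset (Edge n r))) : mu p P = ev (nu p) (ind P) := by
  unfold mu ev
  refine sum_bij' (fun H _ e => decide (e ∈ H)) (fun x _ => setOfBits x) (fun _ _ => mem_univ _)
    (fun _ _ => mem_univ _) ?_ ?_ ?_
  · intro H _; ext e; simp [mem_setOfBits]
  · intro x _; funext e; simp [mem_setOfBits]
  · intro H _
    have h1 : setOfBits (fun e => decide (e ∈ H)) = H := by ext e; simp [mem_setOfBits]
    simp only [ind, h1]
    have h2 : prw (nu p) (fun e => decide (e ∈ H))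
        = p ^ H.card * (1 - p) ^ (Fintype.card (Edge n r) - H.card) := by
      simp only [prw, nu, decide_eq_true_eq]
      rw [prod_ite, prod_const, prod_const, filter_mem_eq_inter, univ_inter,
        filter_not, filter_mem_eq_inter, univ_inter, card_univ_sdiff]
    rw [h2]
    split_ifs <;> simp

theorem setOfBits_comp (π : Equiv.Perm (Fin n)) (x : Edge n r → Bool) :
    setOfBits (fun e => x (edgePerm π e)) = (setOfBits x).image (edgePerm π.symm) := by
  ext e
  simp only [mem_setOfBits, mem_image]
  constructor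
  · intro h
    refine ⟨edgePerm π e, h, Subtype.ext ?_⟩
    ext v; simp [edgePerm]
  · rintro ⟨a, ha, rfl⟩
    have : edgePerm π (edgePerm π.symm a) = a := by
      apply Subtype.ext; ext v; simp [edgePerm]
    rwa [this]

open Classical in
theorem ind_invariant {P : Set (Finset (Edge n r))} (hs : IsSymm P) : Invariant (ind P) := by
  intro π x
  have h : setOfBits (fun e => x (edgePerm π e)) ∈ P ↔ setOfBits x ∈ P := by
    rw [setOfBits_comp]
    refine ⟨fun h => ?_, hs π.symm _⟩
    have := hs π _ h
    rwa [image_image, show edgePerm π ∘ edgePerm π.symm = (id : Edge n r → Edge n r) from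
      funext fun a => Subtype.ext (by ext v; simp [edgePerm]), image_id] at this
  simp [ind, h]

open Classical in
theorem ind_mono {P : Set (Finset (Edge n r))} (hi : IsIncreasing P) : MonoBits (ind P) := by
  intro i x
  have hsub : setOfBits (Function.update x i false) ⊆ setOfBits (Function.update x i true) := by
    intro e
    by_cases h : e = i
    · subst h; simp [mem_setOfBits]
    · simp [mem_setOfBits, h]
  by_cases h : setOfBits (Function.update x i false) ∈ P
  · simp [ind, h, hi _ h _ hsub]
  · simp only [ind, if_neg h]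
    split_ifs <;> norm_num

theorem mu_differentiable (P : Set (Finset (Edge n r))) : Differentiable ℝ fun p => mu p P := by
  simp only [mu_eq_ev]
  exact fun p => (hasDerivAt_ev (ind P) p).differentiableAt

theorem mu_monotoneOn {P : Set (Finset (Edge n r))} (hi : IsIncreasing P) :
    MonotoneOn (fun p => mu p P) (Set.Icc 0 1) := by
  refine monotoneOn_of_deriv_nonneg (convex_Icc 0 1)
    (mu_differentiable P).continuous.continuousOn (mu_differentiable P).differentiableOn
    fun p hp => ?_
  rw [interior_Icc] at hp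
  have h : Inner p := hp
  simp only [mu_eq_ev]
  rw [deriv_ev h]
  exact div_nonneg (sum_nonneg fun i _ => fhat_single_nonneg h (ind_mono hi) i) (Real.sqrt_nonneg _)

theorem mu_one {P : Set (Finset (Edge n r))} (hi : IsIncreasing P) (hne : P.Nonempty) :
    mu 1 P = 1 := by
  classical
  obtain ⟨H, hH⟩ := hne
  have hu : (univ : Finset (Edge n r)) ∈ P := hi H hH _ (subset_univ H)
  rw [mu, sum_eq_single univ]
  · simp [hu]
  · intro K _ hK
    have : Fintype.card (Edge n r) - K.card ≠ 0 := by
      have := card_lt_univ_of_notMem (s := K)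
        (not_forall.1 (fun h => hK (eq_univ_of_forall h))).choose_spec
      omega
    rw [sub_self, zero_pow this, mul_zero, ite_self]
  · simp

theorem pLevel_spec {P : Set (Finset (Edge n r))} (hi : IsIncreasing P) (hne : P.Nonempty)
    {a : ℝ} (ha : a ≤ 1) :
    (0 ≤ pLevel a P ∧ pLevel a P ≤ 1 ∧ a ≤ mu (pLevel a P) P) ∧
      ∀ q, 0 ≤ q → q < pLevel a P → mu q P < a := by
  set s := {p : ℝ | 0 ≤ p ∧ p ≤ 1 ∧ a ≤ mu p P} with hs
  have hb : BddBelow s := ⟨0, fun q hq => hq.1⟩
  have hc : IsClosed s :=
    isClosed_Ici.inter (isClosed_Iic.inter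
      (isClosed_le continuous_const (mu_differentiable P).continuous))
  have hn : s.Nonempty := ⟨1, zero_le_one, le_rfl, by rwa [mu_one hi hne]⟩
  have hmem := hc.csInf_mem hn hb
  refine ⟨hmem, fun q hq0 hq => ?_⟩
  by_contra hcon
  exact (csInf_le hb (show q ∈ s from ⟨hq0, hq.le.trans hmem.2.1, not_lt.1 hcon⟩)).not_gt hq

theorem widthBound_of_lower {r : ℕ} (hr : 2 ≤ r) (h : Lower r) : WidthBound r := by
  intro ε hε hε'
  obtain ⟨c, hc, n₀, hlow⟩ := h ε hε
  set a := (r : ℝ) / ((r : ℝ) - 1) with ha
  have hr' : (2 : ℝ) ≤ r := by exact_mod_cast hr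
  have ha0 : 0 ≤ a := by rw [ha]; exact div_nonneg (by linarith) (by linarith)
  have ha2 : a ≤ 2 := by rw [ha, div_le_iff₀ (by linarith)]; linarith
  set N := max n₀ 16 with hN
  set K := c with hK
  have hK0 : 0 < K := hc
  refine ⟨max (Real.log N ^ a) (4 + 1 / K), fun n hn P hsym hinc hne _ => ?_⟩
  have hn2 : 2 ≤ n := hr.trans hn
  have hL : 0 < Real.log n := Real.log_pos (by exact_mod_cast hn2)
  have hLa : 0 < Real.log n ^ a := Real.rpow_pos_of_pos hL a
  obtain ⟨⟨h10, h11, h12⟩, -⟩ := pLevel_spec hinc hne (a := ε) (by linarith)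
  obtain ⟨⟨h20, h21, -⟩, h23⟩ := pLevel_spec hinc hne (a := 1 - ε) (by linarith)
  rw [le_div_iff₀ hLa]
  unfold width
  set p₁ := pLevel ε P
  set p₂ := pLevel (1 - ε) P
  rcases Nat.lt_or_ge n N with hsmall | hbig
  · refine le_trans ?_ (le_max_left _ _)
    calc (p₂ - p₁) * Real.log n ^ a ≤ 1 * Real.log n ^ a :=
          mul_le_mul_of_nonneg_right (by linarith) hLa.le
      _ ≤ Real.log N ^ a := by
          rw [one_mul]
          refine Real.rpow_le_rpow hL.le (Real.log_le_log (by positivity) ?_) ha0
          exact_mod_cast hsmall.le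
  refine le_trans ?_ (le_max_right _ _)
  have hn16 : (16 : ℝ) ≤ n := by exact_mod_cast (le_max_right n₀ 16).trans hbig
  have hL2 : 2 ≤ Real.log n := by
    have h16 : Real.log 16 = 4 * Real.log 2 := by
      rw [show (16 : ℝ) = 2 ^ 4 by norm_num, Real.log_pow]; norm_num
    have h2 := Real.log_two_gt_d9
    have := Real.log_le_log (by norm_num : (0 : ℝ) < 16) hn16
    linarith
  set δ := 2 * (Real.log n ^ 4)⁻¹ with hδ
  have hδ0 : 0 < δ := by positivity
  have hδ1 : δ ≤ 1 / 8 := by
    have : (16 : ℝ) ≤ Real.log n ^ 4 := by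
      have := pow_le_pow_left₀ (by norm_num : (0 : ℝ) ≤ 2) hL2 4
      norm_num at this ⊢
      linarith
    have h4 := inv_anti₀ (by norm_num : (0 : ℝ) < 16) this
    rw [hδ]
    linarith
  have hδa : 2 * δ * Real.log n ^ a ≤ 4 := by
    have : Real.log n ^ a ≤ Real.log n ^ 4 := by
      rw [← Real.rpow_natCast (Real.log n) 4]
      exact Real.rpow_le_rpow_of_exponent_le (by linarith) (by push_cast; linarith)
    calc 2 * δ * Real.log n ^ a ≤ 2 * δ * Real.log n ^ 4 :=
          mul_le_mul_of_nonneg_left this (by positivity)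
      _ = 4 := by rw [hδ]; field_simp; norm_num
  set u := max p₁ δ with hu
  set v := min p₂ (1 - δ) with hv
  have key : max (v - u) 0 * (K * Real.log n ^ a) ≤ 1 := by
    rcases le_or_gt v u with hvu | huv
    · rw [max_eq_right (by linarith)]; simp
    rw [max_eq_left (by linarith), mul_comm]
    have hmvt : K * Real.log n ^ a * (v - u) ≤ mu v P - mu u P := by
      refine (convex_Icc u v).mul_sub_le_image_sub_of_le_deriv
        (mu_differentiable P).continuous.continuousOn (mu_differentiable P).differentiableOn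
        (fun q hq => ?_) u (Set.left_mem_Icc.2 huv.le) v (Set.right_mem_Icc.2 huv.le) huv.le
      rw [interior_Icc] at hq
      have hqd : δ < q := lt_of_le_of_lt (le_max_right _ _) hq.1
      have hqd' : q < 1 - δ := hq.2.trans_le (min_le_right _ _)
      have hin : Inner q := ⟨by linarith, by linarith⟩
      have hvar : (Real.log n ^ 4)⁻¹ ≤ q * (1 - q) := by
        rw [hδ] at hqd hqd'
        nlinarith
      have hd : (fun p => mu p P) = fun p => ev (nu p) (ind P) := funext fun p => mu_eq_ev p P
      rw [hd]
      have hlo : ε ≤ mu q P := by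
        refine h12.trans (mu_monotoneOn hinc ⟨h10, h11⟩ ⟨hin.1.le, hin.2.le⟩ ?_)
        exact (le_max_left _ _).trans hq.1.le
      have hhi : mu q P < 1 - ε := h23 q hin.1.le (hq.2.trans_le (min_le_left _ _))
      rw [mu_eq_ev] at hlo hhi
      have hb := hlow n ((le_max_left n₀ 16).trans hbig) (ind P) (ind_isBool P)
        (ind_invariant hsym) q hin hvar hlo hhi.le
      rw [tinf_eq_deriv hin (ind_isBool P) (ind_mono hinc)] at hb
      refine le_of_mul_le_mul_right ?_ hin.var_pos
      calc K * Real.log n ^ a * (q * (1 - q)) = K * (q * (1 - q)) * Real.log n ^ a := by ring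
        _ ≤ q * (1 - q) * deriv (fun p => ev (nu p) (ind P)) q := hb
        _ = deriv (fun p => ev (nu p) (ind P)) q * (q * (1 - q)) := mul_comm _ _
    have hv1 : mu v P ≤ 1 :=
      (mu_monotoneOn hinc ⟨le_min h20 (by linarith), (min_le_left _ _).trans h21⟩
        ⟨zero_le_one, le_rfl⟩ ((min_le_left _ _).trans h21)).trans_eq (mu_one hinc hne)
    have hu0 : 0 ≤ mu u P := by
      have hu1 : u ≤ 1 := max_le h11 (by linarith)
      rw [mu_eq_ev]
      refine ev_nonneg (nu_nonneg (le_max_of_le_left h10) hu1) fun x => ?_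
      rcases ind_isBool P x with h | h <;> simp [h]
    linarith
  have hw : p₂ - p₁ ≤ max (v - u) 0 + 2 * δ := by
    have e1 : u ≤ p₁ + δ := max_le (by linarith) (by linarith)
    have e2 : p₂ - δ ≤ v := le_min (by linarith) (by linarith)
    have e3 := le_max_left (v - u) 0
    linarith
  calc (p₂ - p₁) * Real.log n ^ a ≤ (max (v - u) 0 + 2 * δ) * Real.log n ^ a :=
        mul_le_mul_of_nonneg_right hw hLa.le
    _ ≤ 4 + 1 / K := by
        have hm : max (v - u) 0 * Real.log n ^ a ≤ 1 / K := by
          rw [le_div_iff₀ hK0]; linarith [key]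
        rw [add_mul]
        linarith

end Vale.Agent.P063
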